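import Mathlib

/-!
Tools for the Allen-Cahn equation: gradient bound, weak linearised equation, ground state identity.
-/

namespace Vale.Agent.P134

open MeasureTheory Set Filter Topology InnerProductSpace Laplacian
open scoped ENNReal NNReal

noncomputable section

variable {n : ℕ}

/-- coordinate unit vectors -/
def bv (i : Fin n) : EuclideanSpace ℝ (Fin n) := EuclideanSpace.single i 1

/-- partial derivative -/
def pd (i : Fin n) (f : EuclideanSpace ℝ (Fin n) → ℝ) (x : EuclideanSpace ℝ (Fin n)) : ℝ :=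
  fderiv ℝ f x (bv i)

theorem bv_apply (i j : Fin n) : bv i j = if j = i then 1 else 0 := by
  simp [bv, EuclideanSpace.single_apply]

theorem contDiff_pd {f : EuclideanSpace ℝ (Fin n) → ℝ} (hf : ContDiff ℝ 2 f) (i : Fin n) :
    ContDiff ℝ 1 (pd i f) :=
  (hf.fderiv_right (m := 1) le_rfl).clm_apply contDiff_const

theorem continuous_pd {f : EuclideanSpace ℝ (Fin n) → ℝ} (hf : ContDiff ℝ 1 f) (i : Fin n) :
    Continuous (pd i f) :=
  (hf.continuous_fderiv one_ne_zero).clm_apply continuous_const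

theorem continuous_pd2 {f : EuclideanSpace ℝ (Fin n) → ℝ} (hf : ContDiff ℝ 2 f) (i j : Fin n) :
    Continuous (pd i (pd j f)) := continuous_pd (contDiff_pd hf j) i

theorem pd_pd_eq {f : EuclideanSpace ℝ (Fin n) → ℝ} (hf : ContDiff ℝ 2 f) (i j : Fin n)
    (x : EuclideanSpace ℝ (Fin n)) : pd i (pd j f) x = fderiv ℝ (fderiv ℝ f) x (bv i) (bv j) := by
  have h : DifferentiableAt ℝ (fderiv ℝ f) x :=
    ((hf.fderiv_right (m := 1) le_rfl).differentiable one_ne_zero) x
  show fderiv ℝ (fun y => fderiv ℝ f y (bv j)) x (bv i) = _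
  rw [fderiv_clm_apply h (differentiableAt_const _)]
  simp

theorem pd_comm {f : EuclideanSpace ℝ (Fin n) → ℝ} (hf : ContDiff ℝ 2 f) (i j : Fin n)
    (x : EuclideanSpace ℝ (Fin n)) : pd i (pd j f) x = pd j (pd i f) x := by
  rw [pd_pd_eq hf, pd_pd_eq hf]
  exact (hf.contDiffAt.isSymmSndFDerivAt (by simp)) _ _

theorem laplacian_eq_sum {f : EuclideanSpace ℝ (Fin n) → ℝ} (hf : ContDiff ℝ 2 f)
    (x : EuclideanSpace ℝ (Fin n)) : (Δ f) x = ∑ i, pd i (pd i f) x := by
  rw [laplacian_eq_iteratedFDeriv_orthonormalBasis f (EuclideanSpace.basisFun (Fin n) ℝ)]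
  refine Finset.sum_congr rfl fun i _ => ?_
  rw [iteratedFDeriv_two_apply, pd_pd_eq hf]
  simp [bv]

/-- derivative along a line -/
theorem hasDerivAt_line {f : EuclideanSpace ℝ (Fin n) → ℝ} (hf : Differentiable ℝ f)
    (p d : EuclideanSpace ℝ (Fin n)) (t : ℝ) :
    HasDerivAt (fun t : ℝ => f (p + t • d)) (fderiv ℝ f (p + t • d) d) t := by
  have h : HasDerivAt (fun t : ℝ => p + t • d) d t := by
    simpa using ((hasDerivAt_id t).smul_const d).const_add p
  exact (hf (p + t • d)).hasFDerivAt.comp_hasDerivAt t h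

theorem fderiv_eq_sum (f : EuclideanSpace ℝ (Fin n) → ℝ) (x d : EuclideanSpace ℝ (Fin n)) :
    fderiv ℝ f x d = ∑ i, d i * pd i f x := by
  have hd : d = ∑ i, d i • bv i := by
    ext j
    simp [bv_apply]
  conv_lhs => rw [hd, map_sum]
  simp [pd]

/-- second derivative test at a local maximum -/
theorem pd_pd_nonpos_of_isLocalMax {f : EuclideanSpace ℝ (Fin n) → ℝ} (hf : ContDiff ℝ 2 f)
    {z : EuclideanSpace ℝ (Fin n)} (hz : IsLocalMax f z) (i : Fin n) : pd i (pd i f) z ≤ 0 := by
  by_contra hpos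
  rw [not_le] at hpos
  set g : ℝ → ℝ := fun t => f (z + t • bv i) with hg
  have hd : deriv g = fun t => pd i f (z + t • bv i) :=
    funext fun t => (hasDerivAt_line (hf.differentiable two_ne_zero) z (bv i) t).deriv
  have hdd : deriv (deriv g) 0 = pd i (pd i f) z := by
    rw [hd, (hasDerivAt_line ((contDiff_pd hf i).differentiable one_ne_zero) z (bv i) 0).deriv,
      zero_smul, add_zero]
    rfl
  have hfd : fderiv ℝ f z = 0 := hz.fderiv_eq_zero
  have hd0 : deriv g 0 = 0 := by rw [hd]; simp [pd, hfd]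
  have hmax : IsLocalMax g 0 := by
    have hz' : IsLocalMax f (z + (0 : ℝ) • bv i) := by simpa using hz
    exact hz'.comp_continuous (g := fun t : ℝ => z + t • bv i) (Continuous.continuousAt (by fun_prop))
  have hmin : IsLocalMin g 0 := isLocalMin_of_deriv_deriv_pos (by rw [hdd]; exact hpos) hd0
    (by rw [hg]; exact ((hf.continuous).comp (by fun_prop)).continuousAt)
  have hconst : g =ᶠ[𝓝 0] fun _ => g 0 := by
    filter_upwards [hmax, hmin] with t h1 h2
    exact le_antisymm h1 h2
  have : deriv (deriv g) 0 = 0 := by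
    rw [hconst.deriv.deriv_eq]
    simp
  rw [hdd] at this
  linarith

/-- reflection in the hyperplane through `x₀` normal to the `i`-th axis -/
def refl (i : Fin n) (x₀ y : EuclideanSpace ℝ (Fin n)) : EuclideanSpace ℝ (Fin n) :=
  x₀ + (y - (2 * y i) • bv i)

/-- the barrier -/
def bar (i : Fin n) (K : ℝ) (y : EuclideanSpace ℝ (Fin n)) : ℝ :=
  ∑ j, (if j = i then K * y j - (K - 1) * y j ^ 2 else y j ^ 2)

theorem contDiff_refl (i : Fin n) (x₀ : EuclideanSpace ℝ (Fin n)) :
    ContDiff ℝ 2 (refl i x₀) := by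
  unfold refl
  fun_prop

theorem contDiff_bar (i : Fin n) (K : ℝ) : ContDiff ℝ 2 (bar i K) := by
  refine ContDiff.sum fun j _ => ?_
  split_ifs <;> fun_prop

theorem refl_line (i j : Fin n) (x₀ z : EuclideanSpace ℝ (Fin n)) (t : ℝ) :
    refl i x₀ (z + t • bv j) =
      refl i x₀ z + ((if j = i then -1 else 1) * t) • bv j := by
  rcases eq_or_ne j i with rfl | h
  · rw [if_pos rfl]
    simp only [refl, PiLp.add_apply, PiLp.smul_apply, smul_eq_mul, bv_apply, if_pos]
    module
  · rw [if_neg h]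
    simp only [refl, PiLp.add_apply, PiLp.smul_apply, smul_eq_mul, bv_apply, if_neg (Ne.symm h)]
    module

theorem bar_line (i j : Fin n) (K : ℝ) (z : EuclideanSpace ℝ (Fin n)) (t : ℝ) :
    bar i K (z + t • bv j) = bar i K z + (if j = i then
      (K - 2 * (K - 1) * z j) * t - (K - 1) * t ^ 2 else 2 * z j * t + t ^ 2) := by
  unfold bar
  rw [← Finset.add_sum_erase _ _ (Finset.mem_univ j),
    ← Finset.add_sum_erase (Finset.univ : Finset (Fin n)) (fun k => if k = i then
      K * z k - (K - 1) * z k ^ 2 else z k ^ 2) (Finset.mem_univ j)]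
  have hrest : ∀ k ∈ Finset.univ.erase j, (z + t • bv j) k = z k := fun k hk => by
    simp [bv_apply, (Finset.mem_erase.1 hk).1]
  have hjj : (z + t • bv j) j = z j + t := by simp [bv_apply]
  rw [hjj, Finset.sum_congr rfl fun k hk => by rw [hrest k hk]]
  split_ifs <;> ring

/-- the odd part minus the barrier -/
def test (w : EuclideanSpace ℝ (Fin n) → ℝ) (i : Fin n) (x₀ y : EuclideanSpace ℝ (Fin n)) : ℝ :=
  (w (x₀ + y) - w (refl i x₀ y)) / 2 - bar i (n + 2) y

theorem contDiff_test {w : EuclideanSpace ℝ (Fin n) → ℝ} (hw : ContDiff ℝ 2 w) (i : Fin n)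
    (x₀ : EuclideanSpace ℝ (Fin n)) : ContDiff ℝ 2 (test w i x₀) :=
  (((hw.comp (contDiff_const.add contDiff_id)).sub (hw.comp (contDiff_refl i x₀))).div_const
    2).sub (contDiff_bar i _)

theorem pd_pd_line {f : EuclideanSpace ℝ (Fin n) → ℝ} (hf : ContDiff ℝ 2 f) {G : ℝ → ℝ}
    (z : EuclideanSpace ℝ (Fin n)) (j : Fin n) (hG : ∀ t : ℝ, f (z + t • bv j) = G t) {D : ℝ}
    (hD : HasDerivAt (deriv G) D 0) : pd j (pd j f) z = D := by
  have hFd : deriv G = fun t => pd j f (z + t • bv j) := by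
    rw [← funext hG]
    exact funext fun t => (hasDerivAt_line (hf.differentiable two_ne_zero) z (bv j) t).deriv
  have h2 := hasDerivAt_line ((contDiff_pd hf j).differentiable one_ne_zero) z (bv j) 0
  rw [hFd] at hD
  rw [zero_smul, add_zero] at h2
  exact (hD.unique h2).symm

theorem pd_pd_test {w : EuclideanSpace ℝ (Fin n) → ℝ} (hw : ContDiff ℝ 2 w) (i j : Fin n)
    (x₀ z : EuclideanSpace ℝ (Fin n)) :
    pd j (pd j (test w i x₀)) z =
      (pd j (pd j w) (x₀ + z) - pd j (pd j w) (refl i x₀ z)) / 2 -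
        (if j = i then -(2 * ((n : ℝ) + 2 - 1)) else 2) := by
  set K : ℝ := (n : ℝ) + 2
  set σ : ℝ := if j = i then -1 else 1 with hσ
  set R : EuclideanSpace ℝ (Fin n) := refl i x₀ z
  set G : ℝ → ℝ := fun t => (w (x₀ + z + t • bv j) - w (R + (σ * t) • bv j)) / 2 -
    (bar i K z + (if j = i then (K - 2 * (K - 1) * z j) * t - (K - 1) * t ^ 2
      else 2 * z j * t + t ^ 2))
  have hline : ∀ t : ℝ, test w i x₀ (z + t • bv j) = G t := fun t => by
    show (_ - _) / 2 - _ = _
    rw [refl_line, bar_line, ← add_assoc x₀ z]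
  have hw1 : Differentiable ℝ w := hw.differentiable two_ne_zero
  have hw2 : Differentiable ℝ (pd j w) := (contDiff_pd hw j).differentiable one_ne_zero
  have d1 : ∀ t, HasDerivAt G ((pd j w (x₀ + z + t • bv j) -
      σ * pd j w (R + (σ * t) • bv j)) / 2 -
      (if j = i then (K - 2 * (K - 1) * z j) - 2 * (K - 1) * t else 2 * z j + 2 * t)) t := by
    intro t
    have a1 := hasDerivAt_line hw1 (x₀ + z) (bv j) t
    have a2 := (hasDerivAt_line hw1 R (bv j) (σ * t)).comp t ((hasDerivAt_id t).const_mul σ)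
    have a3 : HasDerivAt (fun t : ℝ => bar i K z + (if j = i then
        (K - 2 * (K - 1) * z j) * t - (K - 1) * t ^ 2 else 2 * z j * t + t ^ 2))
        (if j = i then (K - 2 * (K - 1) * z j) - 2 * (K - 1) * t else 2 * z j + 2 * t) t := by
      split_ifs
      · refine HasDerivAt.congr_deriv ((((hasDerivAt_id t).const_mul _).sub
          (((hasDerivAt_id t).pow 2).const_mul (K - 1))).const_add _) ?_
        simp; ring
      · refine HasDerivAt.congr_deriv ((((hasDerivAt_id t).const_mul _).add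
          ((hasDerivAt_id t).pow 2)).const_add _) ?_
        simp
    refine ((((a1.sub a2).div_const 2).sub a3).congr_deriv ?_)
    simp only [pd, mul_one]
    ring
  have d2 : HasDerivAt (deriv G) ((pd j (pd j w) (x₀ + z) -
      σ * σ * pd j (pd j w) R) / 2 - (if j = i then -(2 * (K - 1)) else 2)) 0 := by
    rw [funext fun t => (d1 t).deriv]
    have a1 := hasDerivAt_line hw2 (x₀ + z) (bv j) 0
    have a2 := ((hasDerivAt_line hw2 R (bv j) (σ * 0)).comp (0 : ℝ)
      ((hasDerivAt_id (0 : ℝ)).const_mul σ)).const_mul σ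
    have a3 : HasDerivAt (fun t : ℝ =>
        (if j = i then (K - 2 * (K - 1) * z j) - 2 * (K - 1) * t else 2 * z j + 2 * t))
        (if j = i then -(2 * (K - 1)) else 2) 0 := by
      split_ifs
      · simpa using ((hasDerivAt_id (0 : ℝ)).const_mul (2 * (K - 1))).const_sub
          (K - 2 * (K - 1) * z j)
      · simpa using ((hasDerivAt_id (0 : ℝ)).const_mul (2 : ℝ)).const_add (2 * z j)
    refine ((((a1.sub a2).div_const 2).sub a3).congr_deriv ?_)
    simp only [pd, zero_smul, add_zero, mul_zero, mul_one]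
    ring
  rw [pd_pd_line (contDiff_test hw i x₀) z j hline d2,
    show σ * σ = 1 by rw [hσ]; split_ifs <;> norm_num, one_mul]

/-- the half cube -/
def halfCube (i : Fin n) : Set (EuclideanSpace ℝ (Fin n)) :=
  {y | (∀ j, |y j| ≤ 1) ∧ 0 ≤ y i}

theorem continuous_abs_coord (j : Fin n) :
    Continuous fun y : EuclideanSpace ℝ (Fin n) => |y j| :=
  (PiLp.continuous_apply 2 (fun _ : Fin n => ℝ) j).abs

theorem isCompact_halfCube (i : Fin n) : IsCompact (halfCube i) := by
  refine Metric.isCompact_of_isClosed_isBounded ?_ ?_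
  · refine IsClosed.inter ?_ (isClosed_le continuous_const (PiLp.continuous_apply 2 _ i))
    show IsClosed {y : EuclideanSpace ℝ (Fin n) | ∀ j, |y j| ≤ 1}
    rw [Set.ofPred_forall]
    exact isClosed_iInter fun j => isClosed_le (continuous_abs_coord j) continuous_const
  · refine (Metric.isBounded_closedBall (x := (0 : EuclideanSpace ℝ (Fin n)))
      (r := Real.sqrt n)).subset fun y hy => ?_
    rw [mem_closedBall_zero_iff, EuclideanSpace.norm_eq]
    refine Real.sqrt_le_sqrt ?_
    calc ∑ j, ‖y j‖ ^ 2 ≤ ∑ _j : Fin n, (1 : ℝ) := Finset.sum_le_sum fun j _ => by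
          rw [Real.norm_eq_abs]; nlinarith [hy.1 j, abs_nonneg (y j)]
      _ = n := by simp

theorem bar_piece_nonneg {i : Fin n} {y : EuclideanSpace ℝ (Fin n)} (hy : y ∈ halfCube i)
    (j : Fin n) :
    0 ≤ (if j = i then ((n : ℝ) + 2) * y j - ((n : ℝ) + 2 - 1) * y j ^ 2 else y j ^ 2) := by
  have hn : (0 : ℝ) ≤ n := Nat.cast_nonneg n
  split_ifs with h
  · subst h
    have h1 := (abs_le.1 (hy.1 j)).2
    have : 0 ≤ (n : ℝ) + 2 - ((n : ℝ) + 2 - 1) * y j := by nlinarith
    nlinarith [mul_nonneg hy.2 this]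
  · exact sq_nonneg _

theorem test_nonpos {w : EuclideanSpace ℝ (Fin n) → ℝ} (hw : ContDiff ℝ 2 w)
    (hwb : ∀ x, |w x| ≤ 1) (hwl : ∀ x, |(Δ w) x| ≤ 2) (i : Fin n)
    (x₀ : EuclideanSpace ℝ (Fin n)) : ∀ y ∈ halfCube i, test w i x₀ y ≤ 0 := by
  obtain ⟨z, hzS, hzmax⟩ := (isCompact_halfCube i).exists_isMaxOn
    ⟨0, by simp [halfCube]⟩ (contDiff_test hw i x₀).continuous.continuousOn
  refine fun y hy => (hzmax hy).trans ?_
  have hwle : (w (x₀ + z) - w (refl i x₀ z)) / 2 ≤ 1 := by
    linarith [(abs_le.1 (hwb (x₀ + z))).2, (abs_le.1 (hwb (refl i x₀ z))).1]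
  have hψ1 : ∀ j, 1 ≤ (if j = i then ((n : ℝ) + 2) * z j - ((n : ℝ) + 2 - 1) * z j ^ 2
      else z j ^ 2) → test w i x₀ z ≤ 0 := by
    intro j hj
    have h1 : 1 ≤ bar i ((n : ℝ) + 2) z := hj.trans
      (Finset.single_le_sum (fun k _ => bar_piece_nonneg hzS k) (Finset.mem_univ j))
    unfold test; linarith
  by_cases hi0 : z i = 0
  · have h1 : refl i x₀ z = x₀ + z := by simp [refl, hi0]
    have h2 : 0 ≤ bar i ((n : ℝ) + 2) z := Finset.sum_nonneg fun k _ => bar_piece_nonneg hzS k
    unfold test; rw [h1]; linarith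
  by_cases hi1 : z i = 1
  · refine hψ1 i ?_
    rw [if_pos rfl, hi1]; linarith
  by_cases hj : ∃ j, j ≠ i ∧ |z j| = 1
  · obtain ⟨j, hji, hj⟩ := hj
    refine hψ1 j ?_
    rw [if_neg hji, ← sq_abs, hj]; norm_num
  exfalso
  have hlt : ∀ j, |z j| < 1 := fun j => by
    rcases eq_or_ne j i with rfl | hji
    · rw [abs_of_nonneg hzS.2]; exact lt_of_le_of_ne (abs_le.1 (hzS.1 j)).2 hi1
    · exact lt_of_le_of_ne (hzS.1 j) fun h => hj ⟨j, hji, h⟩
  have hpos : 0 < z i := lt_of_le_of_ne hzS.2 (Ne.symm hi0)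
  have hnhds : halfCube i ∈ 𝓝 z := by
    have e1 : ∀ᶠ y in 𝓝 z, ∀ j, |y j| < 1 :=
      eventually_all.2 fun j => (continuous_abs_coord j).continuousAt.eventually_lt_const (hlt j)
    have e2 : ∀ᶠ y in 𝓝 z, 0 < y i :=
      (PiLp.continuous_apply 2 (fun _ : Fin n => ℝ) i).continuousAt.eventually_const_lt hpos
    filter_upwards [e1, e2] with y h1 h2
    exact ⟨fun j => (h1 j).le, h2.le⟩
  have hsum : ∑ j, pd j (pd j (test w i x₀)) z ≤ 0 := Finset.sum_nonpos fun j _ =>
    pd_pd_nonpos_of_isLocalMax (contDiff_test hw i x₀) (hzmax.isLocalMax hnhds) j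
  have hK' : ∑ j, (if j = i then -(2 * ((n : ℝ) + 2 - 1)) else (2 : ℝ)) = -4 := by
    rw [← Finset.add_sum_erase _ _ (Finset.mem_univ i), if_pos rfl,
      Finset.sum_congr rfl fun k hk => if_neg (Finset.mem_erase.1 hk).1, Finset.sum_const,
      Finset.card_erase_of_mem (Finset.mem_univ i), Finset.card_univ, Fintype.card_fin,
      nsmul_eq_mul, Nat.cast_sub (Fin.pos i)]
    push_cast
    ring
  simp only [pd_pd_test hw, Finset.sum_sub_distrib, ← Finset.sum_div, hK',
    ← laplacian_eq_sum hw] at hsum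
  linarith [(abs_le.1 (hwl (x₀ + z))).1, (abs_le.1 (hwl (refl i x₀ z))).2]

theorem pd_le_side {w : EuclideanSpace ℝ (Fin n) → ℝ} (hw : ContDiff ℝ 2 w)
    (hwb : ∀ x, |w x| ≤ 1) (hwl : ∀ x, |(Δ w) x| ≤ 2) (i : Fin n)
    (x₀ : EuclideanSpace ℝ (Fin n)) : pd i w x₀ ≤ n + 2 := by
  set K : ℝ := (n : ℝ) + 2 with hK
  have hn : (0 : ℝ) ≤ n := Nat.cast_nonneg n
  have hline : ∀ t ∈ Icc (0 : ℝ) 1,
      (w (x₀ + t • bv i) - w (x₀ + (-t) • bv i)) / 2 ≤ K * t := by
    intro t ht
    have hmem : t • bv i ∈ halfCube i := by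
      refine ⟨fun j => ?_, ?_⟩
      · simp only [PiLp.smul_apply, smul_eq_mul, bv_apply]
        split_ifs
        · rw [mul_one, abs_of_nonneg ht.1]; exact ht.2
        · simp
      · simp only [PiLp.smul_apply, smul_eq_mul, bv_apply, if_pos]
        simpa using ht.1
    have h : test w i x₀ (t • bv i) ≤ 0 := test_nonpos hw hwb hwl i x₀ _ hmem
    have hψt : bar i K (t • bv i) = K * t - (K - 1) * t ^ 2 := by
      unfold bar
      rw [Finset.sum_eq_single i]
      · simp [bv_apply]
      · intro k _ hk; simp [bv_apply, hk]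
      · simp
    have hRt : refl i x₀ (t • bv i) = x₀ + (-t) • bv i := by
      simp only [refl, PiLp.smul_apply, smul_eq_mul, bv_apply, if_pos]
      module
    unfold test at h
    rw [← hK, hψt, hRt] at h
    nlinarith [mul_nonneg (show 0 ≤ K - 1 by linarith) (sq_nonneg t)]
  set q : ℝ → ℝ := fun t => (w (x₀ + t • bv i) - w (x₀ + (-t) • bv i)) / 2 with hq
  have hq' : HasDerivAt q (pd i w x₀) 0 := by
    have a1 := hasDerivAt_line (hw.differentiable two_ne_zero) x₀ (bv i) 0
    have a2 := (hasDerivAt_line (hw.differentiable two_ne_zero) x₀ (bv i) (-0)).comp (0 : ℝ)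
      (hasDerivAt_id (0 : ℝ)).neg
    refine (((a1.sub a2).div_const 2).congr_deriv ?_)
    simp only [pd, neg_zero, zero_smul, add_zero]
    ring
  have hev : ∀ᶠ t in 𝓝[>] (0 : ℝ), slope q 0 t ≤ K := by
    filter_upwards [Ioc_mem_nhdsGT (show (0 : ℝ) < 1 by norm_num)] with t ht
    rw [slope_def_field, div_le_iff₀ (by linarith [ht.1])]
    have := hline t ⟨ht.1.le, ht.2⟩
    simp only [hq] at *
    simp only [zero_smul, neg_zero, add_zero, sub_self, zero_div, sub_zero]
    linarith
  exact le_of_tendsto (hq'.tendsto_slope.mono_left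
    (nhdsWithin_mono _ (show Ioi (0 : ℝ) ⊆ {0}ᶜ from fun t ht => ne_of_gt ht))) hev

theorem pd_neg (i : Fin n) (f : EuclideanSpace ℝ (Fin n) → ℝ) :
    pd i (fun y => -f y) = fun y => -pd i f y := by
  funext y; simp [pd, fderiv_fun_neg]

/-- interior gradient bound by odd reflection and a barrier -/
theorem pd_le {u : EuclideanSpace ℝ (Fin n) → ℝ} (hu : ContDiff ℝ 2 u) (hb : ∀ x, |u x| ≤ 1)
    (hlap : ∀ x, |(Δ u) x| ≤ 2) (i : Fin n) (x₀ : EuclideanSpace ℝ (Fin n)) :
    |pd i u x₀| ≤ n + 2 := by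
  rw [abs_le]
  refine ⟨?_, pd_le_side hu hb hlap i x₀⟩
  have hl : ∀ x, |(Δ (fun y => -u y)) x| ≤ 2 := fun x => by
    rw [laplacian_eq_sum hu.neg]
    simp only [pd_neg]
    rw [Finset.sum_neg_distrib, ← laplacian_eq_sum hu, abs_neg]
    exact hlap x
  have h := pd_le_side hu.neg (fun x => by simpa using hb x) hl i x₀
  rw [show (fun x => -u x) = -u from rfl] at *
  have e := congrFun (pd_neg i u) x₀
  have h' : -pd i u x₀ ≤ (n : ℝ) + 2 := e ▸ h
  linarith

/-- integral of a partial derivative -/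
theorem integral_pd_mul {f g : EuclideanSpace ℝ (Fin n) → ℝ} (hf : ContDiff ℝ 1 f)
    (hg : ContDiff ℝ 1 g) (hgs : HasCompactSupport g) (j : Fin n) :
    ∫ x, pd j f x * g x = -∫ x, f x * pd j g x := by
  have hs : HasCompactSupport (pd j g) := hgs.fderiv_apply (𝕜 := ℝ) (bv j)
  have i1 : Integrable (fun x => pd j f x * g x) :=
    ((continuous_pd hf j).mul hg.continuous).integrable_of_hasCompactSupport hgs.mul_left
  have i2 : Integrable (fun x => f x * pd j g x) :=
    (hf.continuous.mul (continuous_pd hg j)).integrable_of_hasCompactSupport hs.mul_left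
  have i3 : Integrable (fun x => f x * g x) :=
    (hf.continuous.mul hg.continuous).integrable_of_hasCompactSupport hgs.mul_left
  have h := integral_mul_fderiv_eq_neg_fderiv_mul_of_integrable (μ := volume) i1 i2 i3
    (fun x _ => hf.differentiable one_ne_zero x) (fun x _ => hg.differentiable one_ne_zero x)
  simp only [pd] at *
  linarith

/-- the weak linearised equation for a partial derivative -/
theorem weak_jacobi {u : EuclideanSpace ℝ (Fin n) → ℝ} (hu : ContDiff ℝ 2 u)
    (heq : ∀ x, (Δ u) x = u x ^ 3 - u x) {φ : EuclideanSpace ℝ (Fin n) → ℝ}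
    (hφ : ContDiff ℝ 1 φ) (hφs : HasCompactSupport φ) (i : Fin n) :
    (∫ x, ∑ j, pd j (pd i u) x * pd j φ x) +
      ∫ x, (3 * u x ^ 2 - 1) * pd i u x * φ x = 0 := by
  set e := bv i with he
  let P : ℝ → EuclideanSpace ℝ (Fin n) → ℝ := fun h x =>
    (∑ j, pd j u (x + h • e) * pd j φ x) + (u (x + h • e) ^ 3 - u (x + h • e)) * φ x
  let P' : ℝ → EuclideanSpace ℝ (Fin n) → ℝ := fun h x =>
    (∑ j, pd j (pd i u) (x + h • e) * pd j φ x) +
      (3 * u (x + h • e) ^ 2 - 1) * pd i u (x + h • e) * φ x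
  have hsj : ∀ j, HasCompactSupport (pd j φ) := fun j => hφs.fderiv_apply (𝕜 := ℝ) (bv j)
  have hzero : ∀ h, ∫ x, P h x = 0 := by
    intro h
    have hsh : ContDiff ℝ 2 (fun x => u (x + h • e)) :=
      hu.comp (contDiff_id.add contDiff_const)
    have hpd : ∀ j x, pd j (fun x => u (x + h • e)) x = pd j u (x + h • e) := by
      intro j x
      simp only [pd]
      rw [fderiv_comp_add_right]
    have hj : ∀ j, ∫ x, pd j u (x + h • e) * pd j φ x =
        -∫ x, pd j (pd j u) (x + h • e) * φ x := by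
      intro j
      have hc : ContDiff ℝ 1 (fun x => pd j u (x + h • e)) :=
        (contDiff_pd hu j).comp (contDiff_id.add contDiff_const)
      rw [eq_neg_iff_add_eq_zero, add_comm, ← eq_neg_iff_add_eq_zero]
      refine Eq.trans ?_ (integral_pd_mul hc hφ hφs j)
      refine integral_congr_ae (Eventually.of_forall fun x => ?_)
      simp only [pd]
      rw [fderiv_comp_add_right (f := fun y => fderiv ℝ u y (bv j))]
      rfl
    have i1 : ∀ j, Integrable fun x => pd j u (x + h • e) * pd j φ x := fun j =>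
      (((continuous_pd (hu.of_le one_le_two) j).comp (by fun_prop)).mul
        (continuous_pd hφ j)).integrable_of_hasCompactSupport (hsj j).mul_left
    have i2 : ∀ j, Integrable fun x => pd j (pd j u) (x + h • e) * φ x := fun j =>
      (((continuous_pd2 hu j j).comp (by fun_prop)).mul
        hφ.continuous).integrable_of_hasCompactSupport hφs.mul_left
    have i3 : Integrable fun x => (u (x + h • e) ^ 3 - u (x + h • e)) * φ x :=
      ((((hu.continuous.comp (by fun_prop)).pow 3).sub (hu.continuous.comp (by fun_prop))).mul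
        hφ.continuous).integrable_of_hasCompactSupport hφs.mul_left
    show ∫ x, (∑ j, pd j u (x + h • e) * pd j φ x) +
      (u (x + h • e) ^ 3 - u (x + h • e)) * φ x = 0
    rw [integral_add (integrable_finsetSum _ fun j _ => i1 j) i3,
      integral_finsetSum _ (fun j _ => i1 j), Finset.sum_congr rfl fun j _ => hj j,
      Finset.sum_neg_distrib, ← integral_finsetSum _ (fun j _ => i2 j)]
    simp only [← Finset.sum_mul, ← laplacian_eq_sum hu, heq]
    ring
  have cP : ∀ h, Continuous (P h) := fun h => by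
    refine Continuous.add (continuous_finsetSum _ fun j _ => ?_) ?_
    · exact ((continuous_pd (hu.of_le one_le_two) j).comp (by fun_prop)).mul (continuous_pd hφ j)
    · exact (((hu.continuous.comp (by fun_prop)).pow 3).sub
        (hu.continuous.comp (by fun_prop))).mul hφ.continuous
  have cP' : Continuous (Function.uncurry P') := by
    refine Continuous.add (continuous_finsetSum _ fun j _ => ?_) ?_
    · exact ((continuous_pd2 hu j i).comp (by fun_prop)).mul
        ((continuous_pd hφ j).comp continuous_snd)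
    · exact ((((hu.continuous.comp (by fun_prop)).pow 2).const_mul 3 |>.sub
        continuous_const).mul ((continuous_pd (hu.of_le one_le_two) i).comp (by fun_prop))).mul
        (hφ.continuous.comp continuous_snd)
  obtain ⟨C, hC⟩ := ((isCompact_Icc (a := (-1 : ℝ)) (b := 1)).prod hφs.isCompact).exists_bound_of_continuousOn
    cP'.continuousOn
  have hout : ∀ h x, x ∉ tsupport φ → P h x = 0 ∧ P' h x = 0 := by
    intro h x hx
    have h1 : φ x = 0 := image_eq_zero_of_notMem_tsupport hx
    have h2 : ∀ j, pd j φ x = 0 := fun j => by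
      simp [pd, fderiv_of_notMem_tsupport ℝ hx]
    simp [P, P', h1, h2]
  have hd : ∀ x, ∀ h : ℝ, HasDerivAt (P · x) (P' h x) h := by
    intro x h
    have a : ∀ j, HasDerivAt (fun h : ℝ => pd j u (x + h • e) * pd j φ x)
        (pd j (pd i u) (x + h • e) * pd j φ x) h := fun j => by
      have := hasDerivAt_line ((contDiff_pd hu j).differentiable one_ne_zero) x e h
      rw [show fderiv ℝ (pd j u) (x + h • e) e = pd i (pd j u) (x + h • e) from rfl,
        pd_comm hu] at this
      exact this.mul_const _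
    have b : HasDerivAt (fun h : ℝ => u (x + h • e)) (pd i u (x + h • e)) h :=
      hasDerivAt_line (hu.differentiable two_ne_zero) x e h
    refine ((HasDerivAt.fun_sum fun j _ => a j).add
      (((b.pow 3).sub b).mul_const (φ x))).congr_deriv ?_
    simp only [P']
    push_cast
    ring
  obtain ⟨-, hG⟩ := hasDerivAt_integral_of_dominated_loc_of_deriv_le
    (F := P) (F' := P') (μ := volume) (x₀ := (0 : ℝ)) (s := Icc (-1 : ℝ) 1)
    (bound := (tsupport φ).indicator fun _ => C)
    (Icc_mem_nhds (by norm_num) (by norm_num))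
    (Eventually.of_forall fun h => (cP h).aestronglyMeasurable)
    ((cP 0).integrable_of_hasCompactSupport
      (HasCompactSupport.intro hφs.isCompact fun x hx => (hout 0 x hx).1))
    ((cP'.comp (continuous_const.prodMk continuous_id)).aestronglyMeasurable)
    (Eventually.of_forall fun x h hh => by
      by_cases hx : x ∈ tsupport φ
      · rw [indicator_of_mem hx]; exact hC (h, x) ⟨hh, hx⟩
      · rw [indicator_of_notMem hx, (hout h x hx).2, norm_zero])
    ((integrable_indicator_iff (isClosed_tsupport φ).measurableSet).2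
      (integrableOn_const hφs.isCompact.measure_lt_top.ne))
    (Eventually.of_forall fun x h _ => hd x h)
  have h0 : ∫ x, P' 0 x = 0 := by
    refine hG.unique ?_
    rw [show (fun h => ∫ x, P h x) = fun _ => (0 : ℝ) from funext hzero]
    exact hasDerivAt_const _ _
  have i1 : Integrable fun x => ∑ j, pd j (pd i u) x * pd j φ x :=
    integrable_finsetSum _ fun j _ => ((continuous_pd2 hu j i).mul
      (continuous_pd hφ j)).integrable_of_hasCompactSupport (hsj j).mul_left
  have i2 : Integrable fun x => (3 * u x ^ 2 - 1) * pd i u x * φ x :=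
    ((((hu.continuous.pow 2).const_mul 3).sub continuous_const).mul
      (continuous_pd (hu.of_le one_le_two) i)).mul hφ.continuous
      |>.integrable_of_hasCompactSupport hφs.mul_left
  simp only [P', zero_smul, add_zero] at h0
  rw [integral_add i1 i2] at h0
  exact h0

/-- ground state identity: compare two partial derivatives, one of them positive -/
theorem picone {u : EuclideanSpace ℝ (Fin n) → ℝ} (hu : ContDiff ℝ 2 u)
    (heq : ∀ x, (Δ u) x = u x ^ 3 - u x) {m : Fin n} (hv : ∀ x, 0 < pd m u x)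
    {η : EuclideanSpace ℝ (Fin n) → ℝ} (hη : ContDiff ℝ 1 η) (hηs : HasCompactSupport η)
    (i : Fin n) :
    ∫ x, pd m u x ^ 2 * ∑ j, pd j (fun y => η y * pd i u y / pd m u y) x ^ 2 =
      ∫ x, pd i u x ^ 2 * ∑ j, pd j η x ^ 2 := by
  set w := pd i u with hw
  set v := pd m u with hv'
  have cw : ContDiff ℝ 1 w := contDiff_pd hu i
  have cv : ContDiff ℝ 1 v := contDiff_pd hu m
  have hv0 : ∀ x, v x ≠ 0 := fun x => (hv x).ne'
  set φ₁ : EuclideanSpace ℝ (Fin n) → ℝ := fun y => η y ^ 2 * w y with hφ₁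
  set φ₂ : EuclideanSpace ℝ (Fin n) → ℝ := fun y => η y ^ 2 * w y ^ 2 / v y with hφ₂
  have c1 : ContDiff ℝ 1 φ₁ := (hη.pow 2).mul cw
  have c2 : ContDiff ℝ 1 φ₂ := ((hη.pow 2).mul (cw.pow 2)).div cv hv0
  have s1 : HasCompactSupport φ₁ := hηs.mono fun x hx => by
    simp only [Function.mem_support, hφ₁] at hx ⊢; intro h; simp [h] at hx
  have s2 : HasCompactSupport φ₂ := hηs.mono fun x hx => by
    simp only [Function.mem_support, hφ₂] at hx ⊢; intro h; simp [h] at hx
  have j1 := weak_jacobi hu heq c1 s1 i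
  have j2 := weak_jacobi hu heq c2 s2 m
  rw [← hw] at j1; rw [← hv'] at j2
  have hpt : ∀ x j, v x ^ 2 * pd j (fun y => η y * w y / v y) x ^ 2 =
      w x ^ 2 * pd j η x ^ 2 + (pd j w x * pd j φ₁ x - pd j v x * pd j φ₂ x) := by
    intro x j
    have dη : HasFDerivAt η (fderiv ℝ η x) x := (hη.differentiable one_ne_zero x).hasFDerivAt
    have dw : HasFDerivAt w (fderiv ℝ w x) x := (cw.differentiable one_ne_zero x).hasFDerivAt
    have dv : HasFDerivAt v (fderiv ℝ v x) x := (cv.differentiable one_ne_zero x).hasFDerivAt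
    have dinv : HasFDerivAt (fun y => (v y)⁻¹) (-(v x ^ 2)⁻¹ • fderiv ℝ v x) x :=
      (hasDerivAt_inv (hv0 x)).comp_hasFDerivAt x dv
    simp only [pd, hφ₁, hφ₂, div_eq_mul_inv, pow_two]
    rw [((dη.fun_mul dw).fun_mul dinv).fderiv, ((dη.fun_mul dη).fun_mul dw).fderiv,
      (((dη.fun_mul dη).fun_mul (dw.fun_mul dw)).fun_mul dinv).fderiv]
    simp only [ContinuousLinearMap.add_apply, ContinuousLinearMap.smul_apply, smul_eq_mul,
      ContinuousLinearMap.neg_apply, neg_smul]
    have := hv0 x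
    field_simp
    ring
  have hpt' : ∀ x, v x ^ 2 * ∑ j, pd j (fun y => η y * w y / v y) x ^ 2 =
      w x ^ 2 * ∑ j, pd j η x ^ 2 +
        ((∑ j, pd j w x * pd j φ₁ x) - ∑ j, pd j v x * pd j φ₂ x) := fun x => by
    simp only [Finset.mul_sum, hpt, Finset.sum_add_distrib, Finset.sum_sub_distrib]
  have hc : ∀ x, (3 * u x ^ 2 - 1) * w x * φ₁ x = (3 * u x ^ 2 - 1) * v x * φ₂ x := fun x => by
    simp only [hφ₁, hφ₂]
    have := hv0 x
    field_simp
  simp only [hc] at j1
  have iη : Integrable fun x => w x ^ 2 * ∑ j, pd j η x ^ 2 := by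
    refine ((cw.continuous.pow 2).mul (continuous_finsetSum _ fun j _ =>
      (continuous_pd hη j).pow 2)).integrable_of_hasCompactSupport ?_
    refine HasCompactSupport.intro hηs.isCompact fun x hx => ?_
    simp [pd, fderiv_of_notMem_tsupport ℝ hx]
  have ia : Integrable fun x => ∑ j, pd j w x * pd j φ₁ x :=
    integrable_finsetSum _ fun j _ => ((continuous_pd cw j).mul
      (continuous_pd c1 j)).integrable_of_hasCompactSupport
      (s1.fderiv_apply (𝕜 := ℝ) (bv j)).mul_left
  have ib : Integrable fun x => ∑ j, pd j v x * pd j φ₂ x :=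
    integrable_finsetSum _ fun j _ => ((continuous_pd cv j).mul
      (continuous_pd c2 j)).integrable_of_hasCompactSupport
      (s2.fderiv_apply (𝕜 := ℝ) (bv j)).mul_left
  have h3 := integral_add iη (ia.sub ib)
  simp only [Pi.sub_apply] at h3
  rw [integral_congr_ae (Eventually.of_forall hpt'), h3, integral_sub ia ib]
  linarith

end

end Vale.Agent.P134
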