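import Vale.Agent.P134.Basic

/-!
Logarithmic cutoffs adapted to ellipsoids, and volumes of boxes.
-/

namespace Vale.Agent.P134

open MeasureTheory Set Filter Topology
open scoped ENNReal NNReal

noncomputable section

variable {n : ℕ}

/-- the quadratic form of an ellipsoid -/
def quad (a : Fin n → ℝ) (x : EuclideanSpace ℝ (Fin n)) : ℝ := ∑ j, a j * x j ^ 2

/-- the scales -/
def scale (k i : ℕ) : ℝ := 4 ^ (k + i)

theorem scale_pos (k i : ℕ) : 0 < scale k i := by unfold scale; positivity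

theorem two_mul_scale_le (k i : ℕ) : 2 * scale k i ≤ ((2 : ℝ) ^ (k + i + 1)) ^ 2 := by
  have h : ((2 : ℝ) ^ (k + i + 1)) ^ 2 = 4 * scale k i := by
    rw [scale, ← pow_mul, show (4 : ℝ) = 2 ^ 2 by norm_num, ← pow_mul, ← pow_add]
    congr 1
    ring
  rw [h]
  linarith [scale_pos k i]

/-- the step profile -/
def prof : ℝ → ℝ := Real.smoothTransition

theorem prof_contDiff : ContDiff ℝ 1 prof := Real.smoothTransition.contDiff

theorem deriv_prof_zero {t : ℝ} (h : t ≤ 0 ∨ 1 ≤ t) : deriv prof t = 0 := by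
  rcases h with h | h
  · exact IsLocalMin.deriv_eq_zero (Eventually.of_forall fun s => by
      simp only [prof, Real.smoothTransition.zero_of_nonpos h]
      exact Real.smoothTransition.nonneg s)
  · exact IsLocalMax.deriv_eq_zero (Eventually.of_forall fun s => by
      simp only [prof, Real.smoothTransition.one_of_one_le h]
      exact Real.smoothTransition.le_one s)

theorem exists_prof_bound : ∃ K : ℝ, 0 ≤ K ∧ ∀ t, |deriv prof t| ≤ K := by
  obtain ⟨K, hK⟩ := (isCompact_Icc (a := (0 : ℝ)) (b := 1)).exists_bound_of_continuousOn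
    (prof_contDiff.continuous_deriv le_rfl).continuousOn
  refine ⟨max K 0, le_max_right _ _, fun t => ?_⟩
  by_cases h : t ≤ 0 ∨ 1 ≤ t
  · rw [deriv_prof_zero h, abs_zero]; exact le_max_right _ _
  · exact le_trans (hK t ⟨le_of_not_ge fun h' => h (.inl h'), le_of_not_ge fun h' => h (.inr h')⟩)
      (le_max_left _ _)

/-- one step -/
def step (a : Fin n → ℝ) (k i : ℕ) (x : EuclideanSpace ℝ (Fin n)) : ℝ :=
  prof (2 - quad a x / scale k i)

/-- the slope of one step -/
def slope' (a : Fin n → ℝ) (k i : ℕ) (x : EuclideanSpace ℝ (Fin n)) : ℝ :=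
  deriv prof (2 - quad a x / scale k i) / scale k i

/-- the weights -/
def harm (M : ℕ) : ℝ := ∑ i ∈ Finset.Icc 1 M, (i : ℝ)⁻¹

/-- the weights -/
def wt (M i : ℕ) : ℝ := (i : ℝ)⁻¹ / harm M

/-- the cutoff -/
def cutf (a : Fin n → ℝ) (k M : ℕ) (x : EuclideanSpace ℝ (Fin n)) : ℝ :=
  ∑ i ∈ Finset.Icc 1 M, wt M i * step a k i x

theorem harm_pos {M : ℕ} (hM : 1 ≤ M) : 0 < harm M :=
  Finset.sum_pos (fun i hi => by
    have : 1 ≤ i := (Finset.mem_Icc.1 hi).1
    positivity) ⟨1, Finset.mem_Icc.2 ⟨le_rfl, hM⟩⟩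

theorem wt_nonneg (M i : ℕ) : 0 ≤ wt M i :=
  div_nonneg (by positivity) (Finset.sum_nonneg fun j _ => by positivity)

theorem sum_wt {M : ℕ} (hM : 1 ≤ M) : ∑ i ∈ Finset.Icc 1 M, wt M i = 1 := by
  unfold wt
  rw [← Finset.sum_div]
  exact div_self (harm_pos hM).ne'

theorem harm_ge (l : ℕ) : (l : ℝ) / 2 ≤ harm (2 ^ l) := by
  have h : harm (2 ^ l) = (harmonic (2 ^ l) : ℝ) := by
    simp [harm, harmonic_eq_sum_Icc]
  rw [h]
  refine le_trans ?_ (log_add_one_le_harmonic (2 ^ l))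
  have h2 : Real.log ((2 : ℝ) ^ l) ≤ Real.log (((2 ^ l : ℕ) : ℝ) + 1) :=
    Real.log_le_log (by positivity) (by push_cast; linarith)
  refine le_trans ?_ (le_of_le_of_eq h2 (by norm_cast))
  rw [Real.log_pow]
  nlinarith [Real.log_two_gt_d9, (Nat.cast_nonneg l : (0 : ℝ) ≤ l)]

theorem sum_inv_sq_le (M : ℕ) : ∑ i ∈ Finset.Icc 1 M, ((i : ℝ)⁻¹) ^ 2 ≤ 2 := by
  suffices h : ∀ M : ℕ, 1 ≤ M → ∑ i ∈ Finset.Icc 1 M, ((i : ℝ)⁻¹) ^ 2 ≤ 2 - (M : ℝ)⁻¹ by
    rcases Nat.eq_zero_or_pos M with rfl | hM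
    · simp
    · exact (h M hM).trans (sub_le_self _ (by positivity))
  intro M hM
  induction M, hM using Nat.le_induction with
  | base => norm_num
  | succ M hM ih =>
    rw [Finset.sum_Icc_succ_top (by omega)]
    have h0 : (0 : ℝ) < M := by exact_mod_cast hM
    push_cast
    have h1 : (((M : ℝ) + 1)⁻¹) ^ 2 ≤ (M : ℝ)⁻¹ - ((M : ℝ) + 1)⁻¹ := by
      rw [inv_pow, inv_sub_inv h0.ne' (by positivity), le_div_iff₀ (by positivity),
        inv_mul_le_iff₀ (by positivity)]
      nlinarith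
    linarith

theorem contDiff_quad (a : Fin n → ℝ) : ContDiff ℝ 1 (quad a) :=
  ContDiff.sum fun j _ => by fun_prop

theorem contDiff_step (a : Fin n → ℝ) (k i : ℕ) : ContDiff ℝ 1 (step a k i) :=
  prof_contDiff.comp (contDiff_const.sub ((contDiff_quad a).div_const _))

theorem contDiff_cutf (a : Fin n → ℝ) (k M : ℕ) : ContDiff ℝ 1 (cutf a k M) :=
  ContDiff.sum fun i _ => contDiff_const.mul (contDiff_step a k i)

theorem pd_quad (a : Fin n → ℝ) (j : Fin n) (x : EuclideanSpace ℝ (Fin n)) :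
    pd j (quad a) x = 2 * a j * x j := by
  have h : HasFDerivAt (quad a) (∑ i, a i • ((2 * x i) •
      (EuclideanSpace.proj i : EuclideanSpace ℝ (Fin n) →L[ℝ] ℝ))) x := by
    refine HasFDerivAt.fun_sum fun i _ => ?_
    have := ((EuclideanSpace.proj i : EuclideanSpace ℝ (Fin n) →L[ℝ] ℝ).hasFDerivAt
      (x := x)).pow 2
    simpa using this.const_mul (a i)
  simp only [pd, h.fderiv]
  simp [bv_apply]
  ring

theorem pd_cutf (a : Fin n → ℝ) (k M : ℕ) (j : Fin n) (x : EuclideanSpace ℝ (Fin n)) :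
    pd j (cutf a k M) x =
      -(2 * a j * x j) * ∑ i ∈ Finset.Icc 1 M, wt M i * slope' a k i x := by
  have hq := ((contDiff_quad a).differentiable one_ne_zero x).hasFDerivAt
  have h : HasFDerivAt (cutf a k M) (∑ i ∈ Finset.Icc 1 M, wt M i •
      (deriv prof (2 - quad a x / scale k i) • -((scale k i)⁻¹ • fderiv ℝ (quad a) x))) x := by
    refine HasFDerivAt.fun_sum fun i _ => ?_
    refine HasFDerivAt.const_mul ?_ _
    refine ((prof_contDiff.differentiable one_ne_zero _).hasDerivAt).comp_hasFDerivAt x ?_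
    simpa [div_eq_inv_mul] using (hq.const_mul (scale k i)⁻¹).const_sub 2
  have hqj : fderiv ℝ (quad a) x (bv j) = 2 * a j * x j := pd_quad a j x
  show fderiv ℝ (cutf a k M) x (bv j) = _
  rw [h.fderiv, Finset.mul_sum, sum_apply]
  refine Finset.sum_congr rfl fun i _ => ?_
  simp only [smul_apply, neg_apply, smul_eq_mul, hqj, slope']
  ring

theorem slope'_eq_zero {a : Fin n → ℝ} {k i : ℕ} {x : EuclideanSpace ℝ (Fin n)}
    (h : quad a x ≤ scale k i ∨ 2 * scale k i ≤ quad a x) : slope' a k i x = 0 := by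
  unfold slope'
  rw [deriv_prof_zero, zero_div]
  have hp := scale_pos k i
  rcases h with h | h
  · right; have := (div_le_one hp).2 h; linarith
  · left; have := (le_div_iff₀ hp).2 h; linarith

theorem slope'_mul {a : Fin n → ℝ} {k i i' : ℕ} {x : EuclideanSpace ℝ (Fin n)} (h : i ≠ i') :
    slope' a k i x * slope' a k i' x = 0 := by
  wlog hlt : i < i' generalizing i i'
  · rw [mul_comm]; exact this (Ne.symm h) (lt_of_le_of_ne (not_lt.1 hlt) (Ne.symm h))
  by_cases h1 : 2 * scale k i ≤ quad a x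
  · rw [slope'_eq_zero (.inr h1), zero_mul]
  · rw [slope'_eq_zero (i := i') (.inl ?_), mul_zero]
    have : 4 * scale k i ≤ scale k i' := by
      rw [scale, scale, ← pow_succ']
      exact pow_le_pow_right₀ (by norm_num) (by omega)
    linarith [scale_pos k i]

theorem abs_slope'_le {a : Fin n → ℝ} {k i : ℕ} {x : EuclideanSpace ℝ (Fin n)} {K : ℝ}
    (hK : ∀ t, |deriv prof t| ≤ K) :
    |slope' a k i x| ≤ {y | quad a y ≤ 2 * scale k i}.indicator (fun _ => K / scale k i) x := by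
  by_cases h : quad a x ≤ 2 * scale k i
  · rw [indicator_of_mem (show x ∈ {y | quad a y ≤ 2 * scale k i} from h), slope', abs_div,
      abs_of_pos (scale_pos k i)]
    exact div_le_div_of_nonneg_right (hK _) (scale_pos k i).le
  · rw [indicator_of_notMem (show x ∉ {y | quad a y ≤ 2 * scale k i} from h), slope'_eq_zero (.inr (le_of_not_ge h)), abs_zero]

theorem quad_nonneg {a : Fin n → ℝ} (ha : ∀ j, 0 ≤ a j) (x : EuclideanSpace ℝ (Fin n)) :
    0 ≤ quad a x := Finset.sum_nonneg fun j _ => mul_nonneg (ha j) (sq_nonneg _)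

/-- the gradient of the cutoff -/
theorem sum_sq_pd_cutf {a : Fin n → ℝ} (ha : ∀ j, 0 ≤ a j) (ha1 : ∀ j, a j ≤ 1) {k M : ℕ}
    {K : ℝ} (hK : ∀ t, |deriv prof t| ≤ K) (x : EuclideanSpace ℝ (Fin n)) :
    ∑ j, pd j (cutf a k M) x ^ 2 ≤ ∑ i ∈ Finset.Icc 1 M,
      {y | quad a y ≤ 2 * scale k i}.indicator (fun _ => 8 * K ^ 2 * wt M i ^ 2 / scale k i) x := by
  set T := ∑ i ∈ Finset.Icc 1 M, wt M i * slope' a k i x with hT
  have h1 : ∑ j, pd j (cutf a k M) x ^ 2 ≤ 4 * quad a x * T ^ 2 := by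
    simp only [pd_cutf, ← hT, quad, Finset.mul_sum, Finset.sum_mul]
    refine Finset.sum_le_sum fun j _ => ?_
    calc (-(2 * a j * x j) * T) ^ 2 = a j * (4 * (a j * x j ^ 2) * T ^ 2) := by ring
      _ ≤ 1 * (4 * (a j * x j ^ 2) * T ^ 2) :=
          mul_le_mul_of_nonneg_right (ha1 j) (by have := ha j; positivity)
      _ = _ := one_mul _
  have h2 : T ^ 2 = ∑ i ∈ Finset.Icc 1 M, wt M i ^ 2 * slope' a k i x ^ 2 := by
    rw [hT, sq, Finset.sum_mul_sum]
    refine Finset.sum_congr rfl fun i hi => ?_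
    rw [Finset.sum_eq_single i]
    · ring
    · intro i' _ hne
      rw [mul_mul_mul_comm, slope'_mul (Ne.symm hne), mul_zero]
    · exact fun h => absurd hi h
  refine h1.trans ?_
  rw [h2, Finset.mul_sum]
  refine Finset.sum_le_sum fun i _ => ?_
  by_cases h : quad a x ≤ 2 * scale k i
  · have hb := abs_slope'_le (a := a) (k := k) (i := i) (x := x) hK
    rw [indicator_of_mem (show x ∈ {y | quad a y ≤ 2 * scale k i} from h)] at hb ⊢
    have hsq : slope' a k i x ^ 2 ≤ (K / scale k i) ^ 2 := by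
      rw [← sq_abs]; exact pow_le_pow_left₀ (abs_nonneg _) hb 2
    have hp := scale_pos k i
    calc 4 * quad a x * (wt M i ^ 2 * slope' a k i x ^ 2)
        ≤ 4 * (2 * scale k i) * (wt M i ^ 2 * (K / scale k i) ^ 2) := by
          refine mul_le_mul (mul_le_mul_of_nonneg_left h (by norm_num)) ?_ (by positivity)
            (by positivity)
          exact mul_le_mul_of_nonneg_left hsq (sq_nonneg _)
      _ = _ := by field_simp; ring
  · rw [indicator_of_notMem (show x ∉ {y | quad a y ≤ 2 * scale k i} from h),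
      slope'_eq_zero (.inr (le_of_not_ge h))]
    simp

theorem cutf_nonneg (a : Fin n → ℝ) (k M : ℕ) (x : EuclideanSpace ℝ (Fin n)) :
    0 ≤ cutf a k M x :=
  Finset.sum_nonneg fun i _ => mul_nonneg (wt_nonneg M i) (Real.smoothTransition.nonneg _)

theorem cutf_le_one (a : Fin n → ℝ) (k : ℕ) {M : ℕ} (hM : 1 ≤ M)
    (x : EuclideanSpace ℝ (Fin n)) : cutf a k M x ≤ 1 := by
  calc cutf a k M x ≤ ∑ i ∈ Finset.Icc 1 M, wt M i * 1 :=
        Finset.sum_le_sum fun i _ =>
          mul_le_mul_of_nonneg_left (Real.smoothTransition.le_one _) (wt_nonneg M i)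
    _ = 1 := by simp [sum_wt hM]

theorem cutf_eq_one {a : Fin n → ℝ} {k M : ℕ} (hM : 1 ≤ M) {x : EuclideanSpace ℝ (Fin n)}
    (h : quad a x ≤ 4 ^ (k + 1)) : cutf a k M x = 1 := by
  rw [← sum_wt hM]
  refine Finset.sum_congr rfl fun i hi => ?_
  rw [step, prof, Real.smoothTransition.one_of_one_le, mul_one]
  have : quad a x ≤ scale k i := h.trans
    (pow_le_pow_right₀ (by norm_num) (by have := (Finset.mem_Icc.1 hi).1; omega))
  have := (div_le_one (scale_pos k i)).2 this
  linarith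

theorem quad_le_of_norm_le {a : Fin n → ℝ} (ha1 : ∀ j, a j ≤ 1) {x : EuclideanSpace ℝ (Fin n)}
    {r : ℝ} (hx : ‖x‖ ≤ r) : quad a x ≤ r ^ 2 := by
  calc quad a x ≤ ∑ j, 1 * x j ^ 2 :=
        Finset.sum_le_sum fun j _ => mul_le_mul_of_nonneg_right (ha1 j) (sq_nonneg _)
    _ = ‖x‖ ^ 2 := by simp [EuclideanSpace.norm_sq_eq]
    _ ≤ r ^ 2 := pow_le_pow_left₀ (norm_nonneg _) hx 2

theorem cutf_compact {a : Fin n → ℝ} (ha : ∀ j, 0 < a j) (k M : ℕ) :
    HasCompactSupport (cutf a k M) := by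
  classical
  rcases isEmpty_or_nonempty (Fin n) with hn | hn
  · exact HasCompactSupport.intro (isCompact_univ) fun x hx => absurd (mem_univ x) hx
  obtain ⟨j₀, hj₀⟩ := Finite.exists_min a
  set R : ℝ := Real.sqrt (2 * scale k M / a j₀)
  refine HasCompactSupport.intro (isCompact_closedBall (0 : EuclideanSpace ℝ (Fin n)) R)
    fun x hx => ?_
  rw [mem_closedBall_zero_iff, not_le] at hx
  refine Finset.sum_eq_zero fun i hi => ?_
  rw [step, prof, Real.smoothTransition.zero_of_nonpos, mul_zero]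
  have hlow : a j₀ * ‖x‖ ^ 2 ≤ quad a x := by
    rw [EuclideanSpace.norm_sq_eq, Finset.mul_sum]
    exact Finset.sum_le_sum fun j _ => by
      rw [Real.norm_eq_abs, sq_abs]; exact mul_le_mul_of_nonneg_right (hj₀ j) (sq_nonneg _)
  have hR : 2 * scale k M / a j₀ ≤ ‖x‖ ^ 2 := by
    rw [← Real.sq_sqrt (show 0 ≤ 2 * scale k M / a j₀ by
      have := scale_pos k M; have := ha j₀; positivity)]
    exact pow_le_pow_left₀ (Real.sqrt_nonneg _) hx.le 2
  rw [div_le_iff₀ (ha j₀)] at hR
  have : scale k i ≤ scale k M :=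
    pow_le_pow_right₀ (by norm_num) (by have := (Finset.mem_Icc.1 hi).2; omega)
  have h2 : 2 ≤ quad a x / scale k i := by
    rw [le_div_iff₀ (scale_pos k i)]; nlinarith
  linarith

/-- coordinate boxes -/
def box (b : Fin n → ℝ) : Set (EuclideanSpace ℝ (Fin n)) := {x | ∀ j, |x j| ≤ b j}

theorem box_eq (b : Fin n → ℝ) :
    box b = (WithLp.ofLp (p := 2) (V := Fin n → ℝ)) ⁻¹' Icc (fun j => -b j) b := by
  ext x
  simp [box, abs_le, Pi.le_def, forall_and]

theorem measurableSet_box (b : Fin n → ℝ) : MeasurableSet (box b) := by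
  rw [box_eq]
  exact (PiLp.volume_preserving_ofLp (Fin n)).measurable measurableSet_Icc

theorem volume_box_lt_top (b : Fin n → ℝ) : volume (box b) < ∞ := by
  rw [box_eq, (PiLp.volume_preserving_ofLp (Fin n)).measure_preimage
    measurableSet_Icc.nullMeasurableSet]
  exact isCompact_Icc.measure_lt_top

theorem volume_box (b : Fin n → ℝ) (hb : ∀ j, 0 ≤ b j) :
    volume.real (box b) = ∏ j, 2 * b j := by
  rw [measureReal_def, box_eq, (PiLp.volume_preserving_ofLp (Fin n)).measure_preimage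
    measurableSet_Icc.nullMeasurableSet, Real.volume_Icc_pi_toReal]
  · exact Finset.prod_congr rfl fun j _ => by ring
  · intro j; linarith [hb j]

theorem integrable_indicator_box (b : Fin n → ℝ) (c : ℝ) :
    Integrable ((box b).indicator fun _ => c) :=
  (integrable_indicator_iff (measurableSet_box b)).2 (integrableOn_const (volume_box_lt_top b).ne)

theorem integral_indicator_box (b : Fin n → ℝ) (hb : ∀ j, 0 ≤ b j) (c : ℝ) :
    ∫ x, (box b).indicator (fun _ => c) x = (∏ j, 2 * b j) * c := by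
  rw [integral_indicator_const _ (measurableSet_box b), volume_box b hb, smul_eq_mul]

/-- a continuous non-negative function with arbitrarily small integral over a ball vanishes there -/
theorem eq_zero_of_small {f : EuclideanSpace ℝ (Fin n) → ℝ} (hf : Continuous f)
    (h0 : ∀ x, 0 ≤ f x) {r C : ℝ}
    (h : ∀ l : ℕ, 1 ≤ l → ∫ x in Metric.closedBall 0 r, f x ≤ C / l) :
    ∀ x ∈ Metric.ball (0 : EuclideanSpace ℝ (Fin n)) r, f x = 0 := by
  have hle : ∫ x in Metric.closedBall 0 r, f x ≤ 0 :=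
    ge_of_tendsto (tendsto_const_div_atTop_nhds_zero_nat C)
      (eventually_atTop.2 ⟨1, fun l hl => h l hl⟩)
  have hint : IntegrableOn f (Metric.closedBall 0 r) :=
    hf.continuousOn.integrableOn_compact (isCompact_closedBall _ _)
  have hz : f =ᵐ[volume.restrict (Metric.closedBall 0 r)] 0 :=
    (integral_eq_zero_iff_of_nonneg h0 hint).1 (le_antisymm hle (integral_nonneg h0))
  exact Measure.eqOn_open_of_ae_eq (ae_restrict_of_ae_restrict_of_subset
    Metric.ball_subset_closedBall hz) Metric.isOpen_ball hf.continuousOn continuousOn_const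

end

end Vale.Agent.P134
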