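import Vale.Agent.P134.Planar

/-!
Dimension four: solutions invariant under the rotations of a horizontal plane are one-dimensional.
-/

namespace Vale.Agent.P134

open MeasureTheory Set Filter Topology InnerProductSpace Laplacian
open scoped ENNReal NNReal RealInnerProductSpace

noncomputable section

/-- four-space -/
abbrev E4 : Type := EuclideanSpace ℝ (Fin 4)

/-- the plane -/
abbrev E2 : Type := EuclideanSpace ℝ (Fin 2)

/-- infinitesimal invariance under rotations -/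
theorem curl_eq {u : E4 → ℝ} (hu : Differentiable ℝ u)
    (hrot : ∀ (θ : ℝ) (x : E4), u (!₂[Real.cos θ * x 0 - Real.sin θ * x 1,
      Real.sin θ * x 0 + Real.cos θ * x 1, x 2, x 3]) = u x) (x : E4) :
    x 0 * pd 1 u x = x 1 * pd 0 u x := by
  set p : E4 := x 0 • bv 0 + x 1 • bv 1 with hp
  set d : E4 := (-x 1) • bv 0 + x 0 • bv 1 with hd
  have hγ : ∀ θ : ℝ, u (x + (Real.cos θ - 1) • p + Real.sin θ • d) = u x := fun θ => by
    refine Eq.trans (congrArg u ?_) (hrot θ x)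
    ext i
    fin_cases i <;> simp [hp, hd, bv_apply] <;> ring
  have hc : HasDerivAt (fun θ : ℝ => x + (Real.cos θ - 1) • p + Real.sin θ • d)
      ((-Real.sin 0) • p + Real.cos 0 • d) 0 :=
    ((((Real.hasDerivAt_cos 0).sub_const 1).smul_const p).const_add x).add
      ((Real.hasDerivAt_sin 0).smul_const d)
  have h1 := (hu (x + (Real.cos 0 - 1) • p + Real.sin 0 • d)).hasFDerivAt.comp_hasDerivAt (0 : ℝ) hc
  have h2 : HasDerivAt (fun _ : ℝ => u x) _ 0 :=
    h1.congr_of_eventuallyEq (Eventually.of_forall fun θ => (hγ θ).symm)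
  have h3 := h2.unique (hasDerivAt_const (0 : ℝ) (u x))
  simp only [Real.cos_zero, Real.sin_zero, neg_zero, zero_smul, one_smul, sub_self, add_zero,
    zero_add, hd, map_add, map_smul, smul_eq_mul] at h3
  simp only [pd]
  linarith

theorem cs2 (a b c d : ℝ) : (a * b - c * d) ^ 2 ≤ (a ^ 2 + c ^ 2) * (b ^ 2 + d ^ 2) := by
  nlinarith [sq_nonneg (a * d + c * b)]

/-- a planar radial field is controlled by its derivatives -/
theorem radial_bound {A B : E4 → ℝ} (hA : Differentiable ℝ A) (hB : Differentiable ℝ B)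
    (h : ∀ y, y 0 * B y = y 1 * A y) (x : E4) :
    A x ^ 2 + B x ^ 2 ≤
      (x 0 ^ 2 + x 1 ^ 2) * ((∑ j, pd j A x ^ 2) + ∑ j, pd j B x ^ 2) := by
  have h0 := (((EuclideanSpace.proj (0 : Fin 4) : E4 →L[ℝ] ℝ).hasFDerivAt (x := x)).fun_mul
    (hB x).hasFDerivAt)
  have h1 := (((EuclideanSpace.proj (1 : Fin 4) : E4 →L[ℝ] ℝ).hasFDerivAt (x := x)).fun_mul
    (hA x).hasFDerivAt)
  have h0' := h0.congr_of_eventuallyEq (f₁ := fun y : E4 => y 1 * A y)
    (Eventually.of_forall fun y => (h y).symm)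
  have he := h0'.unique h1
  have e0 := congrArg (fun L : E4 →L[ℝ] ℝ => L (bv 0)) he
  have e1 := congrArg (fun L : E4 →L[ℝ] ℝ => L (bv 1)) he
  simp [bv_apply] at e0 e1
  have q0 : B x = x 1 * pd 0 A x - x 0 * pd 0 B x := by simp only [pd]; linarith
  have q1 : A x = x 0 * pd 1 B x - x 1 * pd 1 A x := by simp only [pd]; linarith
  simp only [Fin.sum_univ_four]
  rw [q0, q1]
  have c0 := cs2 (x 1) (pd 0 A x) (x 0) (pd 0 B x)
  have c1 := cs2 (x 0) (pd 1 B x) (x 1) (pd 1 A x)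
  have c2 : 0 ≤ (x 0 ^ 2 + x 1 ^ 2) *
      (pd 2 A x ^ 2 + pd 3 A x ^ 2 + pd 2 B x ^ 2 + pd 3 B x ^ 2) := by positivity
  nlinarith

/-- the weight -/
def qf (x : E4) : ℝ := (Real.sqrt (1 + x 0 ^ 2 + x 1 ^ 2))⁻¹

theorem qf_base_pos (x : E4) : 0 < 1 + x 0 ^ 2 + x 1 ^ 2 := by positivity

theorem qf_pos (x : E4) : 0 < qf x := inv_pos.2 (Real.sqrt_pos.2 (qf_base_pos x))

theorem qf_sq (x : E4) : qf x ^ 2 * (1 + x 0 ^ 2 + x 1 ^ 2) = 1 := by
  rw [qf, inv_pow, Real.sq_sqrt (qf_base_pos x).le, inv_mul_cancel₀ (qf_base_pos x).ne']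

theorem contDiff_qf : ContDiff ℝ 1 qf := by
  refine ContDiff.inv (ContDiff.sqrt (by fun_prop) fun x => (qf_base_pos x).ne') fun x => ?_
  exact (Real.sqrt_pos.2 (qf_base_pos x)).ne'

theorem pd_qf (x : E4) (j : Fin 4) :
    pd j qf x = -qf x ^ 3 * (x 0 * bv j 0 + x 1 * bv j 1) := by
  have hb : HasFDerivAt (fun y : E4 => 1 + y 0 ^ 2 + y 1 ^ 2)
      ((2 * x 0) • (EuclideanSpace.proj (0 : Fin 4) : E4 →L[ℝ] ℝ) +
        (2 * x 1) • (EuclideanSpace.proj (1 : Fin 4) : E4 →L[ℝ] ℝ)) x := by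
    have a0 := ((EuclideanSpace.proj (0 : Fin 4) : E4 →L[ℝ] ℝ).hasFDerivAt (x := x)).pow 2
    have a1 := ((EuclideanSpace.proj (1 : Fin 4) : E4 →L[ℝ] ℝ).hasFDerivAt (x := x)).pow 2
    simpa using (a0.const_add 1).fun_add a1
  have h : HasFDerivAt qf _ x := (hasDerivAt_inv
    (Real.sqrt_pos.2 (qf_base_pos x)).ne').comp_hasFDerivAt x (hb.sqrt (qf_base_pos x).ne')
  simp only [pd, h.fderiv]
  simp [qf]
  have := (Real.sqrt_pos.2 (qf_base_pos x)).ne'
  field_simp
  ring

/-- the transversal energy density -/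
def transW (u : E4 → ℝ) (x : E4) : ℝ := pd 0 u x ^ 2 + pd 1 u x ^ 2

/-- the basic inequality -/
theorem energy {u : E4 → ℝ} (hu : ContDiff ℝ 2 u) (heq : ∀ x, (Δ u) x = u x ^ 3 - u x)
    (hv : ∀ x, 0 < pd 3 u x) (hrad : ∀ x, x 0 * pd 1 u x = x 1 * pd 0 u x)
    {ζ : E4 → ℝ} (cζ : ContDiff ℝ 1 ζ) (sζ : HasCompactSupport ζ) :
    ∫ x, ζ x ^ 2 * (transW u x * qf x ^ 6) ≤
      ∫ x, transW u x * (qf x ^ 2 * ∑ j, pd j ζ x ^ 2 +
        2 * |ζ x| * qf x ^ 4 * |x 0 * pd 0 ζ x + x 1 * pd 1 ζ x|) := by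
  set η : E4 → ℝ := fun y => ζ y * qf y with hη
  have cη : ContDiff ℝ 1 η := cζ.mul contDiff_qf
  have sη : HasCompactSupport η := sζ.mul_right
  set A : Fin 4 → E4 → ℝ := fun i y => η y * pd i u y / pd 3 u y with hA
  have cA : ∀ i, ContDiff ℝ 1 (A i) := fun i =>
    (cη.mul (contDiff_pd hu i)).div (contDiff_pd hu 3) fun x => (hv x).ne'
  have hAz : ∀ i x, x ∉ tsupport ζ → ∀ j, pd j (A i) x = 0 := by
    intro i x hx j
    have hev : A i =ᶠ[𝓝 x] fun _ => (0 : ℝ) := by
      filter_upwards [notMem_tsupport_iff_eventuallyEq.1 hx] with y hy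
      simp [hA, hη, hy]
    simp [pd, hev.fderiv_eq]
  have hζz : ∀ x, x ∉ tsupport ζ → ζ x = 0 ∧ ∀ j, pd j ζ x = 0 := fun x hx =>
    ⟨image_eq_zero_of_notMem_tsupport hx, fun j => by
      simp [pd, fderiv_of_notMem_tsupport ℝ hx]⟩
  have hηz : ∀ x, x ∉ tsupport ζ → ∀ j, pd j η x = 0 := by
    intro x hx j
    have hev : η =ᶠ[𝓝 x] fun _ => (0 : ℝ) := by
      filter_upwards [notMem_tsupport_iff_eventuallyEq.1 hx] with y hy
      simp [hη, hy]
    simp [pd, hev.fderiv_eq]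
  have cu : ∀ i : Fin 4, Continuous (pd i u) := fun i => (contDiff_pd hu i).continuous
  have cW : Continuous (transW u) := ((cu 0).pow 2).add ((cu 1).pow 2)
  have cq : Continuous qf := contDiff_qf.continuous
  have hint : ∀ {f : E4 → ℝ}, Continuous f → (∀ x, x ∉ tsupport ζ → f x = 0) → Integrable f :=
    fun hf h0 => hf.integrable_of_hasCompactSupport (HasCompactSupport.intro sζ.isCompact h0)
  have iS : ∀ i, Integrable fun x => pd 3 u x ^ 2 * ∑ j, pd j (A i) x ^ 2 := fun i =>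
    hint (((cu 3).pow 2).mul (continuous_finsetSum _ fun j _ => (continuous_pd (cA i) j).pow 2))
      fun x hx => by simp [hAz i x hx]
  have iT : ∀ i, Integrable fun x => pd i u x ^ 2 * ∑ j, pd j η x ^ 2 := fun i =>
    hint (((cu i).pow 2).mul (continuous_finsetSum _ fun j _ => (continuous_pd cη j).pow 2))
      fun x hx => by simp [hηz x hx]
  have iL : Integrable fun x => ζ x ^ 2 * (transW u x * qf x ^ 6) :=
    hint ((cζ.continuous.pow 2).mul (cW.mul (cq.pow 6))) fun x hx => by simp [(hζz x hx).1]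
  have iR : Integrable fun x => transW u x * (qf x ^ 2 * ∑ j, pd j ζ x ^ 2 +
      2 * |ζ x| * qf x ^ 4 * |x 0 * pd 0 ζ x + x 1 * pd 1 ζ x|) :=
    hint (cW.mul (((cq.pow 2).mul (continuous_finsetSum _ fun j _ => (continuous_pd cζ j).pow 2)).add
      (((continuous_const.mul cζ.continuous.abs).mul (cq.pow 4)).mul
        (((PiLp.continuous_apply 2 (fun _ : Fin 4 => ℝ) 0).mul (continuous_pd cζ 0)).add
          ((PiLp.continuous_apply 2 (fun _ : Fin 4 => ℝ) 1).mul (continuous_pd cζ 1))).abs)))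
      fun x hx => by simp [(hζz x hx).1, (hζz x hx).2]
  set D : E4 → ℝ := fun x =>
    ((pd 3 u x ^ 2 * ∑ j, pd j (A 0) x ^ 2) + pd 3 u x ^ 2 * ∑ j, pd j (A 1) x ^ 2) -
      ((pd 0 u x ^ 2 * ∑ j, pd j η x ^ 2) + pd 1 u x ^ 2 * ∑ j, pd j η x ^ 2) with hD
  have iD : Integrable D := ((iS 0).add (iS 1)).sub ((iT 0).add (iT 1))
  have hD0 : ∫ x, D x = 0 := by
    simp only [hD]
    rw [integral_sub ((iS 0).fun_add (iS 1)) ((iT 0).fun_add (iT 1)),
      integral_add (iS 0) (iS 1), integral_add (iT 0) (iT 1)]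
    simp only [hA, picone hu heq hv cη sη]
    ring
  have hpt : ∀ x, ζ x ^ 2 * (transW u x * qf x ^ 6) ≤ D x +
      transW u x * (qf x ^ 2 * ∑ j, pd j ζ x ^ 2 +
        2 * |ζ x| * qf x ^ 4 * |x 0 * pd 0 ζ x + x 1 * pd 1 ζ x|) := by
    intro x
    have hrb := radial_bound ((cA 0).differentiable one_ne_zero) ((cA 1).differentiable one_ne_zero)
      (fun y => by
        simp only [hA]
        rw [mul_div_assoc', mul_div_assoc', mul_left_comm, hrad y, mul_left_comm]) x
    have hdη : ∀ j, pd j η x =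
        pd j ζ x * qf x - ζ x * qf x ^ 3 * (x 0 * bv j 0 + x 1 * bv j 1) := by
      intro j
      have h := ((cζ.differentiable one_ne_zero x).hasFDerivAt.fun_mul
        (contDiff_qf.differentiable one_ne_zero x).hasFDerivAt)
      have hq := pd_qf x j
      simp only [pd] at hq ⊢
      rw [hη, h.fderiv]
      simp [hq]
      ring
    have hsum : ∑ j, pd j η x ^ 2 = qf x ^ 2 * (∑ j, pd j ζ x ^ 2) -
        2 * ζ x * qf x ^ 4 * (x 0 * pd 0 ζ x + x 1 * pd 1 ζ x) +
        ζ x ^ 2 * qf x ^ 6 * (x 0 ^ 2 + x 1 ^ 2) := by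
      simp only [hdη, Fin.sum_univ_four, bv_apply]
      simp
      ring
    have hq2 := qf_sq x
    set S := (∑ j, pd j (A 0) x ^ 2) + ∑ j, pd j (A 1) x ^ 2 with hS
    have hS0 : 0 ≤ S := by positivity
    have hkey : ζ x ^ 2 * transW u x * qf x ^ 4 ≤ pd 3 u x ^ 2 * S := by
      have h1 : ζ x ^ 2 * transW u x * qf x ^ 4 =
          pd 3 u x ^ 2 * (qf x ^ 2 * (A 0 x ^ 2 + A 1 x ^ 2)) := by
        simp only [hA, hη, transW]
        have := (hv x).ne'
        field_simp
      rw [h1]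
      refine mul_le_mul_of_nonneg_left ?_ (sq_nonneg _)
      calc qf x ^ 2 * (A 0 x ^ 2 + A 1 x ^ 2) ≤ qf x ^ 2 * ((x 0 ^ 2 + x 1 ^ 2) * S) :=
            mul_le_mul_of_nonneg_left hrb (sq_nonneg _)
        _ ≤ qf x ^ 2 * ((1 + x 0 ^ 2 + x 1 ^ 2) * S) :=
            mul_le_mul_of_nonneg_left (mul_le_mul_of_nonneg_right (by linarith) hS0) (sq_nonneg _)
        _ = _ := by rw [← mul_assoc, hq2, one_mul]
    have hDx : D x = pd 3 u x ^ 2 * S - transW u x * ∑ j, pd j η x ^ 2 := by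
      simp only [hD, hS, transW]; ring
    have habs : -(ζ x * (x 0 * pd 0 ζ x + x 1 * pd 1 ζ x)) ≤
        |ζ x| * |x 0 * pd 0 ζ x + x 1 * pd 1 ζ x| := by
      rw [← abs_mul]; exact neg_le_abs _
    have hW : 0 ≤ transW u x := by unfold transW; positivity
    have habs' : 2 * transW u x * qf x ^ 4 * (-(ζ x * (x 0 * pd 0 ζ x + x 1 * pd 1 ζ x))) ≤
        2 * transW u x * qf x ^ 4 * (|ζ x| * |x 0 * pd 0 ζ x + x 1 * pd 1 ζ x|) :=
      mul_le_mul_of_nonneg_left habs (by positivity)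
    have h6 : ζ x ^ 2 * (transW u x * qf x ^ 6) = ζ x ^ 2 * transW u x * qf x ^ 4 -
        transW u x * (ζ x ^ 2 * qf x ^ 6 * (x 0 ^ 2 + x 1 ^ 2)) := by
      linear_combination (ζ x ^ 2 * transW u x * qf x ^ 4) * hq2
    rw [hDx, hsum, h6]
    nlinarith
  calc ∫ x, ζ x ^ 2 * (transW u x * qf x ^ 6)
      ≤ ∫ x, (D x + transW u x * (qf x ^ 2 * ∑ j, pd j ζ x ^ 2 +
        2 * |ζ x| * qf x ^ 4 * |x 0 * pd 0 ζ x + x 1 * pd 1 ζ x|)) :=
        integral_mono iL (iD.fun_add iR) hpt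
    _ = _ := by rw [integral_add iD iR, hD0, zero_add]

/-- the elongated ellipsoid -/
def aF (l : ℕ) : Fin 4 → ℝ := ![((4 : ℝ) ^ l)⁻¹, ((4 : ℝ) ^ l)⁻¹, 1, 1]

theorem aF_pos (l : ℕ) (j : Fin 4) : 0 < aF l j := by
  fin_cases j <;> simp [aF]

theorem aF_le_one (l : ℕ) (j : Fin 4) : aF l j ≤ 1 := by
  have h : ((4 : ℝ) ^ l)⁻¹ ≤ 1 := inv_le_one_of_one_le₀ (one_le_pow₀ (by norm_num))
  fin_cases j <;> simp [aF] <;> first | exact one_le_pow₀ (show (1 : ℝ) ≤ 4 by norm_num) | exact h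

/-- the boxes -/
def bF (m p : ℕ) : Fin 4 → ℝ := ![2 ^ m, 2 ^ m, 2 ^ (p + 1), 2 ^ (p + 1)]

theorem bF_nonneg (m p : ℕ) (j : Fin 4) : 0 ≤ bF m p j := by
  fin_cases j <;> simp [bF]

theorem four_pow (m : ℕ) : (4 : ℝ) ^ m = ((2 : ℝ) ^ m) ^ 2 := by
  rw [← pow_mul, mul_comm, pow_mul]; norm_num

/-- the weight on an ellipsoid is controlled by dyadic boxes -/
theorem qf_sq_le (l k i : ℕ) (x : E4) (h : quad (aF l) x ≤ 2 * scale k i) :
    qf x ^ 2 ≤ ∑ m ∈ Finset.range (l + (k + i) + 2),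
      (box (bF m (k + i))).indicator (fun _ => 4 / (4 : ℝ) ^ m) x := by
  classical
  have hl : (0 : ℝ) < 4 ^ l := by positivity
  simp only [quad, Fin.sum_univ_four, aF, scale] at h
  simp only [Matrix.cons_val_zero, Matrix.cons_val_one, Matrix.cons_val, one_mul] at h
  have hp : (0 : ℝ) < 4 ^ (k + i) := by positivity
  have h01 : x 0 ^ 2 + x 1 ^ 2 ≤ 2 * 4 ^ (l + (k + i)) := by
    have : ((4 : ℝ) ^ l)⁻¹ * (x 0 ^ 2 + x 1 ^ 2) ≤ 2 * 4 ^ (k + i) := by
      nlinarith [sq_nonneg (x 2), sq_nonneg (x 3)]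
    rw [inv_mul_le_iff₀ hl] at this
    rw [pow_add]; linarith
  have hN : 1 + x 0 ^ 2 + x 1 ^ 2 ≤ (4 : ℝ) ^ (l + (k + i) + 1) := by
    rw [pow_succ (4 : ℝ)]
    linarith [one_le_pow₀ (show (1 : ℝ) ≤ 4 by norm_num) (n := l + (k + i))]
  have hex : ∃ m, 1 + x 0 ^ 2 + x 1 ^ 2 ≤ (4 : ℝ) ^ m := ⟨_, hN⟩
  set m := Nat.find hex with hm
  have hmle : m ≤ l + (k + i) + 1 := Nat.find_min' hex hN
  have hmS : 1 + x 0 ^ 2 + x 1 ^ 2 ≤ (4 : ℝ) ^ m := Nat.find_spec hex
  have hbox : x ∈ box (bF m (k + i)) := by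
    have h23 : ∀ t : ℝ, t ^ 2 ≤ 2 * 4 ^ (k + i) → |t| ≤ (2 : ℝ) ^ (k + i + 1) := fun t ht => by
      rw [← abs_of_pos (show (0 : ℝ) < 2 ^ (k + i + 1) by positivity), ← sq_le_sq]
      exact ht.trans (two_mul_scale_le k i)
    have h01' : ∀ t : ℝ, t ^ 2 ≤ (4 : ℝ) ^ m → |t| ≤ (2 : ℝ) ^ m := fun t ht => by
      rw [← abs_of_pos (show (0 : ℝ) < 2 ^ m by positivity), ← sq_le_sq]
      rwa [← four_pow]
    have n0 : 0 ≤ ((4 : ℝ) ^ l)⁻¹ * x 0 ^ 2 := by positivity
    have n1 : 0 ≤ ((4 : ℝ) ^ l)⁻¹ * x 1 ^ 2 := by positivity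
    intro j
    fin_cases j <;> simp [bF]
    · exact h01' _ (by nlinarith)
    · exact h01' _ (by nlinarith)
    · exact h23 _ (by nlinarith)
    · exact h23 _ (by nlinarith)
  refine le_trans ?_ (Finset.single_le_sum (fun m' _ => indicator_nonneg (fun _ _ => by positivity) x)
    (Finset.mem_range.2 (show m < l + (k + i) + 2 by omega)))
  rw [indicator_of_mem hbox, le_div_iff₀ (by positivity)]
  have hq := qf_sq x
  rcases Nat.eq_zero_or_pos m with h0 | h0
  · rw [h0, pow_zero]; nlinarith [sq_nonneg (x 0), sq_nonneg (x 1)]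
  · have hlt : (4 : ℝ) ^ (m - 1) < 1 + x 0 ^ 2 + x 1 ^ 2 :=
      not_le.1 (Nat.find_min hex (show m - 1 < Nat.find hex by omega))
    have hm4 : (4 : ℝ) ^ m = 4 * 4 ^ (m - 1) := by
      rw [← pow_succ']; congr 1; omega
    rw [hm4]
    nlinarith [sq_nonneg (qf x)]

/-- the per-scale cost -/
def cost (K : ℝ) (l k i : ℕ) : ℝ :=
  72 * ((8 * K ^ 2 * wt (2 ^ l) i ^ 2 + 4 * ((4 : ℝ) ^ l)⁻¹ * K * wt (2 ^ l) i) / scale k i)

/-- vanishing of the transversal gradient -/
theorem transversal_zero {u : E4 → ℝ} (hu : ContDiff ℝ 2 u) (hb : ∀ x, |u x| ≤ 1)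
    (heq : ∀ x, (Δ u) x = u x ^ 3 - u x) (hv : ∀ x, 0 < pd 3 u x)
    (hrad : ∀ x, x 0 * pd 1 u x = x 1 * pd 0 u x) :
    ∀ x, pd 0 u x = 0 ∧ pd 1 u x = 0 := by
  obtain ⟨K, hK0, hK⟩ := exists_prof_bound
  set f : E4 → ℝ := fun x => transW u x * qf x ^ 6 with hf
  have hW0 : ∀ x, 0 ≤ transW u x := fun x => by unfold transW; positivity
  have cf : Continuous f := (((contDiff_pd hu 0).continuous.pow 2).add
    ((contDiff_pd hu 1).continuous.pow 2)).mul (contDiff_qf.continuous.pow 6)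
  have f0 : ∀ x, 0 ≤ f x := fun x => by have := qf_pos x; have := hW0 x; positivity
  have key : ∀ k : ℕ, ∀ x ∈ Metric.ball (0 : E4) (2 ^ k), f x = 0 := by
    intro k
    refine eq_zero_of_small cf f0
      (C := 72 * 256 * (8 * K ^ 2 * (8 * ((k : ℝ) + 3) + 2) + 4 * K * ((k : ℝ) + 4))) fun l hl => ?_
    set M := 2 ^ l with hMdef
    have hM : 1 ≤ M := Nat.one_le_two_pow
    set a := aF l with ha
    set ζ := cutf a k M with hζ
    have cζ : ContDiff ℝ 1 ζ := contDiff_cutf a k _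
    have sζ : HasCompactSupport ζ := cutf_compact (aF_pos l) k _
    have iP : Integrable fun x => ζ x ^ 2 * f x :=
      ((cζ.continuous.pow 2).mul cf).integrable_of_hasCompactSupport
        (HasCompactSupport.intro sζ.isCompact fun x hx => by
          simp [image_eq_zero_of_notMem_tsupport hx])
    have step1 : ∫ x in Metric.closedBall 0 (2 ^ k), f x ≤ ∫ x, ζ x ^ 2 * f x := by
      refine le_trans (le_of_eq (setIntegral_congr_fun measurableSet_closedBall fun x hx => ?_))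
        (setIntegral_le_integral iP
          (Eventually.of_forall fun x => mul_nonneg (sq_nonneg _) (f0 x)))
      have hle : quad a x ≤ 4 ^ (k + 1) := by
        refine (quad_le_of_norm_le (aF_le_one l) (mem_closedBall_zero_iff.1 hx)).trans ?_
        rw [← four_pow]
        exact pow_le_pow_right₀ (by norm_num) (by omega)
      simp [hζ, cutf_eq_one hM hle]
    refine (step1.trans (energy hu heq hv hrad cζ sζ)).trans ?_
    have hbd : ∀ x, transW u x * (qf x ^ 2 * ∑ j, pd j ζ x ^ 2 +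
        2 * |ζ x| * qf x ^ 4 * |x 0 * pd 0 ζ x + x 1 * pd 1 ζ x|) ≤
        ∑ i ∈ Finset.Icc 1 M, ∑ m ∈ Finset.range (l + (k + i) + 2),
          (box (bF m (k + i))).indicator (fun _ => cost K l k i * (4 / (4 : ℝ) ^ m)) x := by
      intro x
      have hq := qf_sq x
      have hq0 := qf_pos x
      have hW : transW u x ≤ 72 := by
        have h0 := pd_le hu hb (lap_bound hb heq) 0 x
        have h1 := pd_le hu hb (lap_bound hb heq) 1 x
        norm_num at h0 h1
        unfold transW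
        rw [← sq_abs (pd 0 u x), ← sq_abs (pd 1 u x)]
        nlinarith [abs_nonneg (pd 0 u x), abs_nonneg (pd 1 u x)]
      set T := ∑ i ∈ Finset.Icc 1 M, wt M i * slope' a k i x with hT
      set T' := ∑ i ∈ Finset.Icc 1 M,
        {y | quad a y ≤ 2 * scale k i}.indicator (fun _ => wt M i * (K / scale k i)) x with hT'
      have hTT : |T| ≤ T' := by
        refine (Finset.abs_sum_le_sum_abs _ _).trans (Finset.sum_le_sum fun i _ => ?_)
        rw [abs_mul, abs_of_nonneg (wt_nonneg M i)]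
        refine (mul_le_mul_of_nonneg_left (abs_slope'_le hK) (wt_nonneg M i)).trans (le_of_eq ?_)
        by_cases h : x ∈ {y | quad a y ≤ 2 * scale k i}
        · rw [indicator_of_mem h, indicator_of_mem h]
        · rw [indicator_of_notMem h, indicator_of_notMem h, mul_zero]
      have hT0 : 0 ≤ T' := (abs_nonneg T).trans hTT
      have hxd : x 0 * pd 0 ζ x + x 1 * pd 1 ζ x =
          -(2 * ((4 : ℝ) ^ l)⁻¹ * (x 0 ^ 2 + x 1 ^ 2) * T) := by
        simp only [hζ, pd_cutf, ← hT]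
        simp [ha, aF]
        ring
      have hr : qf x ^ 2 * (x 0 ^ 2 + x 1 ^ 2) ≤ 1 := by nlinarith
      have hsecond : 2 * |ζ x| * qf x ^ 4 * |x 0 * pd 0 ζ x + x 1 * pd 1 ζ x| ≤
          qf x ^ 2 * (4 * ((4 : ℝ) ^ l)⁻¹ * T') := by
        rw [hxd, abs_neg, abs_mul, abs_of_nonneg (show 0 ≤ 2 * ((4 : ℝ) ^ l)⁻¹ *
          (x 0 ^ 2 + x 1 ^ 2) by positivity), abs_of_nonneg (cutf_nonneg a k M x)]
        calc 2 * ζ x * qf x ^ 4 * (2 * ((4 : ℝ) ^ l)⁻¹ * (x 0 ^ 2 + x 1 ^ 2) * |T|)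
            = (ζ x * (qf x ^ 2 * (x 0 ^ 2 + x 1 ^ 2))) *
                (qf x ^ 2 * (4 * ((4 : ℝ) ^ l)⁻¹ * |T|)) := by ring
          _ ≤ 1 * (qf x ^ 2 * (4 * ((4 : ℝ) ^ l)⁻¹ * |T|)) :=
              mul_le_mul_of_nonneg_right
                (mul_le_one₀ (cutf_le_one a k hM x) (by positivity) hr) (by positivity)
          _ ≤ _ := by rw [one_mul]; gcongr
      have hfirst := sum_sq_pd_cutf (a := a) (k := k) (M := M) (fun j => (aF_pos l j).le)
        (aF_le_one l) hK x
      rw [← hζ] at hfirst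
      have hRnn : 0 ≤ qf x ^ 2 * (∑ j, pd j ζ x ^ 2) +
          2 * |ζ x| * qf x ^ 4 * |x 0 * pd 0 ζ x + x 1 * pd 1 ζ x| := by positivity
      calc _ ≤ 72 * (qf x ^ 2 * ∑ i ∈ Finset.Icc 1 M, {y | quad a y ≤ 2 * scale k i}.indicator
              (fun _ => 8 * K ^ 2 * wt M i ^ 2 / scale k i) x +
            qf x ^ 2 * (4 * ((4 : ℝ) ^ l)⁻¹ * T')) :=
            mul_le_mul hW (add_le_add (mul_le_mul_of_nonneg_left hfirst (sq_nonneg _)) hsecond)
              hRnn (by norm_num)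
        _ ≤ _ := by
            rw [hT', Finset.mul_sum, Finset.mul_sum, Finset.mul_sum, ← Finset.sum_add_distrib,
              Finset.mul_sum]
            refine Finset.sum_le_sum fun i _ => ?_
            have hp := scale_pos k i
            have hw := wt_nonneg M i
            have hc : 0 ≤ cost K l k i := by
              unfold cost; rw [← hMdef]; positivity
            by_cases h : x ∈ {y | quad a y ≤ 2 * scale k i}
            · rw [indicator_of_mem h, indicator_of_mem h]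
              calc _ = qf x ^ 2 * cost K l k i := by
                    unfold cost; rw [← hMdef]; field_simp
                _ ≤ (∑ m ∈ Finset.range (l + (k + i) + 2),
                      (box (bF m (k + i))).indicator (fun _ => 4 / (4 : ℝ) ^ m) x) *
                    cost K l k i :=
                    mul_le_mul_of_nonneg_right (qf_sq_le l k i x h) hc
                _ = _ := by
                    rw [Finset.sum_mul]
                    refine Finset.sum_congr rfl fun m _ => ?_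
                    by_cases hm : x ∈ box (bF m (k + i))
                    · rw [indicator_of_mem hm, indicator_of_mem hm, mul_comm]
                    · rw [indicator_of_notMem hm, indicator_of_notMem hm, zero_mul]
            · rw [indicator_of_notMem h, indicator_of_notMem h, mul_zero, mul_zero, mul_zero,
                add_zero, mul_zero]
              exact Finset.sum_nonneg fun m _ =>
                indicator_nonneg (fun _ _ => by positivity) _
    have hnn : ∀ x, 0 ≤ transW u x * (qf x ^ 2 * ∑ j, pd j ζ x ^ 2 +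
        2 * |ζ x| * qf x ^ 4 * |x 0 * pd 0 ζ x + x 1 * pd 1 ζ x|) := fun x => by
      have := hW0 x; have := qf_pos x; positivity
    refine (integral_mono_of_nonneg (Eventually.of_forall hnn)
      (integrable_finsetSum _ fun i _ => integrable_finsetSum _ fun m _ =>
        integrable_indicator_box _ _) (Eventually.of_forall hbd)).trans ?_
    rw [integral_finsetSum _ fun i _ => integrable_finsetSum _ fun m _ =>
      integrable_indicator_box _ _]
    have hterm : ∀ i, ∫ x, ∑ m ∈ Finset.range (l + (k + i) + 2),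
        (box (bF m (k + i))).indicator (fun _ => cost K l k i * (4 / (4 : ℝ) ^ m)) x =
        72 * 256 * (((l : ℝ) + k + 2 + i) *
          (8 * K ^ 2 * wt M i ^ 2 + 4 * ((4 : ℝ) ^ l)⁻¹ * K * wt M i)) := by
      intro i
      rw [integral_finsetSum _ fun m _ => integrable_indicator_box _ _]
      have hm : ∀ m, ∫ x, (box (bF m (k + i))).indicator
          (fun _ => cost K l k i * (4 / (4 : ℝ) ^ m)) x =
          72 * 256 * (8 * K ^ 2 * wt M i ^ 2 + 4 * ((4 : ℝ) ^ l)⁻¹ * K * wt M i) := fun m => by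
        rw [integral_indicator_box _ (bF_nonneg _ _)]
        unfold cost
        rw [← hMdef]
        simp [Fin.prod_univ_four, bF, scale, pow_succ, four_pow]
        field_simp
        ring
      simp only [hm, Finset.sum_const, Finset.card_range, nsmul_eq_mul]
      push_cast
      ring
    simp only [hterm, ← Finset.mul_sum]
    have hl0 : (0 : ℝ) < l := by exact_mod_cast hl
    have hl1 : (1 : ℝ) ≤ l := by exact_mod_cast hl
    have hH : (l : ℝ) / 2 ≤ harm M := harm_ge l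
    have hHp : 0 < harm M := harm_pos hM
    set L : ℝ := (l : ℝ) + k + 2 with hL
    have hLle : L ≤ ((k : ℝ) + 3) * l := by
      nlinarith [(Nat.cast_nonneg k : (0 : ℝ) ≤ k)]
    have hquad : ∑ i ∈ Finset.Icc 1 M, (L + i) * wt M i ^ 2 ≤ (8 * ((k : ℝ) + 3) + 2) / l := by
      have h2 : ∑ i ∈ Finset.Icc 1 M, wt M i ^ 2 ≤ 8 / ((l : ℝ) * l) := by
        simp only [wt, div_pow, ← Finset.sum_div]
        refine (div_le_div₀ zero_le_two (sum_inv_sq_le _) (by positivity)
          (pow_le_pow_left₀ (by positivity) hH 2)).trans (le_of_eq ?_)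
        field_simp; ring
      have h3 : ∑ i ∈ Finset.Icc 1 M, (i : ℝ) * wt M i ^ 2 = 1 / harm M := by
        rw [← sum_wt hM, Finset.sum_div]
        refine Finset.sum_congr rfl fun i hi => ?_
        have : (i : ℝ) ≠ 0 := by exact_mod_cast ne_of_gt (Finset.mem_Icc.1 hi).1
        unfold wt
        field_simp
      simp only [add_mul, Finset.sum_add_distrib, ← Finset.mul_sum]
      rw [h3]
      have h4 : L * ∑ i ∈ Finset.Icc 1 M, wt M i ^ 2 ≤ ((k : ℝ) + 3) * l * (8 / ((l : ℝ) * l)) :=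
        mul_le_mul hLle h2 (Finset.sum_nonneg fun i _ => sq_nonneg _) (by positivity)
      have h5 : 1 / harm M ≤ 2 / l := by
        rw [div_le_div_iff₀ hHp hl0]; linarith
      refine (add_le_add h4 h5).trans (le_of_eq ?_)
      field_simp
    have hlin : ∑ i ∈ Finset.Icc 1 M, (L + i) * (((4 : ℝ) ^ l)⁻¹ * wt M i) ≤
        ((k : ℝ) + 4) / l := by
      calc ∑ i ∈ Finset.Icc 1 M, (L + i) * (((4 : ℝ) ^ l)⁻¹ * wt M i)
          ≤ ∑ i ∈ Finset.Icc 1 M, (L + M) * (((4 : ℝ) ^ l)⁻¹ * wt M i) :=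
            Finset.sum_le_sum fun i hi => mul_le_mul_of_nonneg_right
              (by have : (i : ℝ) ≤ M := by exact_mod_cast (Finset.mem_Icc.1 hi).2
                  linarith)
              (mul_nonneg (by positivity) (wt_nonneg M i))
        _ = (L + M) / (4 : ℝ) ^ l := by
            rw [← Finset.mul_sum, ← Finset.mul_sum, sum_wt hM, mul_one, div_eq_mul_inv]
        _ ≤ _ := by
            rw [div_le_div_iff₀ (by positivity) hl0, four_pow,
              show ((M : ℝ)) = 2 ^ l by simp [hMdef]]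
            have h2l : (l : ℝ) ≤ 2 ^ l := by exact_mod_cast (Nat.lt_two_pow_self (n := l)).le
            nlinarith [mul_le_mul h2l h2l hl0.le (by positivity : (0 : ℝ) ≤ 2 ^ l),
              (Nat.cast_nonneg k : (0 : ℝ) ≤ k)]
    calc 72 * 256 * ∑ i ∈ Finset.Icc 1 M,
          (L + i) * (8 * K ^ 2 * wt M i ^ 2 + 4 * ((4 : ℝ) ^ l)⁻¹ * K * wt M i)
        = 72 * 256 * (8 * K ^ 2 * ∑ i ∈ Finset.Icc 1 M, (L + i) * wt M i ^ 2 +
            4 * K * ∑ i ∈ Finset.Icc 1 M, (L + i) * (((4 : ℝ) ^ l)⁻¹ * wt M i)) := by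
          simp only [Finset.mul_sum, ← Finset.sum_add_distrib]
          exact Finset.sum_congr rfl fun i _ => by ring
      _ ≤ 72 * 256 * (8 * K ^ 2 * ((8 * ((k : ℝ) + 3) + 2) / l) +
            4 * K * (((k : ℝ) + 4) / l)) := by
          gcongr
      _ = _ := by ring
  intro x
  obtain ⟨k, hk⟩ := pow_unbounded_of_one_lt ‖x‖ (one_lt_two (α := ℝ))
  have h := key k x (mem_ball_zero_iff.2 hk)
  simp only [hf, mul_eq_zero, pow_eq_zero_iff (by norm_num : (6 : ℕ) ≠ 0), (qf_pos x).ne',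
    or_false, transW] at h
  rw [add_eq_zero_iff_of_nonneg (sq_nonneg _) (sq_nonneg _), pow_eq_zero_iff two_ne_zero,
    pow_eq_zero_iff two_ne_zero] at h
  exact h

theorem const_along {n : ℕ} {f : EuclideanSpace ℝ (Fin n) → ℝ} (hf : Differentiable ℝ f)
    {d : EuclideanSpace ℝ (Fin n)} (h : ∀ y, fderiv ℝ f y d = 0)
    (y : EuclideanSpace ℝ (Fin n)) : f (y + d) = f y := by
  have := is_const_of_deriv_eq_zero (f := fun t : ℝ => f (y + t • d))
    (fun t => (hasDerivAt_line hf y d t).differentiableAt)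
    (fun t => by rw [(hasDerivAt_line hf y d t).deriv, h]) 1 0
  simpa using this

/-- the two remaining coordinates -/
def embL : E2 →L[ℝ] E4 :=
  (EuclideanSpace.proj (0 : Fin 2) : E2 →L[ℝ] ℝ).smulRight (bv 2) +
    (EuclideanSpace.proj (1 : Fin 2) : E2 →L[ℝ] ℝ).smulRight (bv 3)

theorem embL_bv0 : embL (bv 0) = bv 2 := by simp [embL, bv_apply]

theorem embL_bv1 : embL (bv 1) = bv 3 := by simp [embL, bv_apply]

theorem pd_comp_embL {f : E4 → ℝ} (hf : Differentiable ℝ f) (y : E2) (i : Fin 2) :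
    pd i (fun z => f (embL z)) y = fderiv ℝ f (embL y) (embL (bv i)) := by
  have h := ((hf (embL y)).hasFDerivAt).comp y (embL.hasFDerivAt (x := y))
  show fderiv ℝ (f ∘ embL) y (bv i) = _
  rw [h.fderiv]
  rfl

/-- rotationally symmetric monotone solutions in dimension four are one-dimensional -/
theorem one_dimensional_of_rotSymm {u : E4 → ℝ} (hu : ContDiff ℝ 2 u)
    (hb : ∀ x, |u x| ≤ 1) (heq : ∀ x, (Δ u) x = u x ^ 3 - u x)
    (hv : ∀ x, 0 < pd 3 u x)
    (hrot : ∀ (θ : ℝ) (x : E4), u (!₂[Real.cos θ * x 0 - Real.sin θ * x 1,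
      Real.sin θ * x 0 + Real.cos θ * x 1, x 2, x 3]) = u x) :
    ∃ e : E4, ‖e‖ = 1 ∧ ∃ h : ℝ → ℝ, ∀ x, u x = h ⟪e, x⟫ := by
  have du : Differentiable ℝ u := hu.differentiable two_ne_zero
  have d1 : ∀ i, Differentiable ℝ (pd i u) := fun i =>
    (contDiff_pd hu i).differentiable one_ne_zero
  have hz := transversal_zero hu hb heq hv (curl_eq du hrot)
  set U : E2 → ℝ := fun y => u (embL y) with hU
  have cU : ContDiff ℝ 2 U := hu.comp embL.contDiff
  have pU0 : pd 0 U = fun y => pd 2 u (embL y) := funext fun y => by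
    rw [hU, pd_comp_embL du, embL_bv0]; rfl
  have pU1 : pd 1 U = fun y => pd 3 u (embL y) := funext fun y => by
    rw [hU, pd_comp_embL du, embL_bv1]; rfl
  have heU : ∀ y, (Δ U) y = U y ^ 3 - U y := by
    intro y
    have e0 : pd 0 u = fun _ => 0 := funext fun x => (hz x).1
    have e1 : pd 1 u = fun _ => 0 := funext fun x => (hz x).2
    rw [laplacian_eq_sum cU, Fin.sum_univ_two, pU0, pU1, pd_comp_embL (d1 2), pd_comp_embL (d1 3),
      embL_bv0, embL_bv1]
    have h := heq (embL y)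
    rw [laplacian_eq_sum hu, Fin.sum_univ_four, e0, e1] at h
    simp only [pd, fderiv_fun_const, Pi.zero_apply, zero_apply, zero_add] at h
    exact h
  obtain ⟨κ, hκ⟩ := planar_ratio cU (fun y => hb _) heU (fun y => by rw [pU1]; exact hv _)
  have htr : ∀ d : E4, d 2 = 0 → d 3 = 0 → ∀ y, u (y + d) = u y := fun d h2 h3 =>
    const_along du fun y => by
      rw [fderiv_eq_sum, Fin.sum_univ_four, h2, h3, (hz y).1, (hz y).2]; ring
  have hratio : ∀ x, pd 2 u x = κ * pd 3 u x := by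
    intro x
    set y : E2 := !₂[x 2, x 3] with hy
    set d : E4 := x - embL y with hd
    have h2 : d 2 = 0 := by simp [hd, hy, embL, bv_apply]
    have h3 : d 3 = 0 := by simp [hd, hy, embL, bv_apply]
    have hf : fderiv ℝ u x = fderiv ℝ u (embL y) := by
      have e : fderiv ℝ (fun z => u (z + d)) (embL y) = fderiv ℝ u (embL y) := by
        rw [funext (htr d h2 h3)]
      rw [fderiv_comp_add_right] at e
      rw [show x = embL y + d by simp [hd]]
      exact e
    have h := hκ y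
    rw [pU0, pU1] at h
    simp only [pd] at h ⊢
    rw [hf]
    exact h
  set N := Real.sqrt (κ ^ 2 + 1) with hN
  have hN0 : 0 < N := Real.sqrt_pos.2 (by positivity)
  have hN2 : N ^ 2 = κ ^ 2 + 1 := Real.sq_sqrt (by positivity)
  set e : E4 := !₂[0, 0, κ / N, 1 / N] with he
  refine ⟨e, ?_, fun t => u (t • e), fun x => ?_⟩
  · rw [EuclideanSpace.norm_eq, Fin.sum_univ_four]
    rw [Real.sqrt_eq_one]
    simp only [Real.norm_eq_abs, sq_abs]
    simp [he]
    field_simp
    linarith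
  · have hi : ⟪e, x⟫ = (κ * x 2 + x 3) / N := by
      rw [PiLp.inner_apply, Fin.sum_univ_four]
      simp [he]
      ring
    set d : E4 := x - ⟪e, x⟫ • e with hd
    have hkd : κ * d 2 + d 3 = 0 := by
      rw [hd, hi]
      simp [he]
      field_simp
      linear_combination (κ * x 2 + x 3) * hN2
    have h := const_along du (d := d) (fun y => by
      rw [fderiv_eq_sum, Fin.sum_univ_four, (hz y).1, (hz y).2, hratio y]
      linear_combination pd 3 u y * hkd) (⟪e, x⟫ • e)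
    rw [hd, add_sub_cancel] at h
    exact h

end

end Vale.Agent.P134
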