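import Vale.Agent.P134.Cutoff

/-!
The planar case: the ratio of two partial derivatives is constant.
-/

namespace Vale.Agent.P134

open MeasureTheory Set Filter Topology InnerProductSpace Laplacian
open scoped ENNReal NNReal

noncomputable section

theorem lap_bound {n : ℕ} {u : EuclideanSpace ℝ (Fin n) → ℝ} (hb : ∀ x, |u x| ≤ 1)
    (heq : ∀ x, (Δ u) x = u x ^ 3 - u x) (x : EuclideanSpace ℝ (Fin n)) : |(Δ u) x| ≤ 2 := by
  rw [heq]
  obtain ⟨h1, h2⟩ := abs_le.1 (hb x)
  rw [abs_le]
  constructor <;> nlinarith [sq_nonneg (u x), mul_le_one₀ (hb x) (abs_nonneg _) (hb x), sq_abs (u x)]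

theorem planar_ratio {u : EuclideanSpace ℝ (Fin 2) → ℝ} (hu : ContDiff ℝ 2 u)
    (hb : ∀ x, |u x| ≤ 1) (heq : ∀ x, (Δ u) x = u x ^ 3 - u x) (hv : ∀ x, 0 < pd 1 u x) :
    ∃ κ : ℝ, ∀ x, pd 0 u x = κ * pd 1 u x := by
  obtain ⟨K, hK0, hK⟩ := exists_prof_bound
  set a : Fin 2 → ℝ := fun _ => 1
  set g : EuclideanSpace ℝ (Fin 2) → ℝ := fun y => pd 0 u y / pd 1 u y with hg
  have cg : ContDiff ℝ 1 g := (contDiff_pd hu 0).div (contDiff_pd hu 1) fun x => (hv x).ne'
  set f : EuclideanSpace ℝ (Fin 2) → ℝ := fun x => pd 1 u x ^ 2 * ∑ j, pd j g x ^ 2 with hf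
  have cf : Continuous f := ((contDiff_pd hu 1).continuous.pow 2).mul
    (continuous_finsetSum _ fun j _ => (continuous_pd cg j).pow 2)
  have f0 : ∀ x, 0 ≤ f x := fun x => by positivity
  have key : ∀ k : ℕ, ∀ x ∈ Metric.ball (0 : EuclideanSpace ℝ (Fin 2)) (2 ^ k), f x = 0 := by
    intro k
    refine eq_zero_of_small cf f0 (C := 2 * 16 * (16 * 8 * K ^ 2) * 4) fun l hl => ?_
    have hM : 1 ≤ 2 ^ l := Nat.one_le_two_pow
    set ζ := cutf a k (2 ^ l) with hζ
    have cζ : ContDiff ℝ 1 ζ := contDiff_cutf a k _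
    have sζ : HasCompactSupport ζ := cutf_compact (fun _ => one_pos) k _
    set A : EuclideanSpace ℝ (Fin 2) → ℝ := fun y => ζ y * pd 0 u y / pd 1 u y with hA
    have cA : ContDiff ℝ 1 A :=
      (cζ.mul (contDiff_pd hu 0)).div (contDiff_pd hu 1) fun x => (hv x).ne'
    have sA : HasCompactSupport A := sζ.mono fun x hx => by
      simp only [Function.mem_support, hA] at hx ⊢; intro h; simp [h] at hx
    set P : EuclideanSpace ℝ (Fin 2) → ℝ := fun x => pd 1 u x ^ 2 * ∑ j, pd j A x ^ 2 with hP
    have iP : Integrable P := by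
      refine (((contDiff_pd hu 1).continuous.pow 2).mul (continuous_finsetSum _ fun j _ =>
        (continuous_pd cA j).pow 2)).integrable_of_hasCompactSupport ?_
      refine HasCompactSupport.intro sA.isCompact fun x hx => ?_
      simp [pd, fderiv_of_notMem_tsupport ℝ hx]
    have step1 : ∫ x in Metric.closedBall 0 (2 ^ k), f x ≤ ∫ x, P x := by
      refine le_trans (le_of_eq (setIntegral_congr_fun measurableSet_closedBall fun x hx => ?_))
        (setIntegral_le_integral iP (Eventually.of_forall fun x => by positivity))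
      have hlt : quad a x < 4 ^ (k + 1) := by
        refine lt_of_le_of_lt (quad_le_of_norm_le (fun _ => le_rfl) (mem_closedBall_zero_iff.1 hx)) ?_
        rw [← pow_mul, pow_succ, show (4 : ℝ) ^ k = 2 ^ (k * 2) by
          rw [mul_comm k, pow_mul]; norm_num]
        linarith [pow_pos (show (0 : ℝ) < 2 by norm_num) (k * 2)]
      have hev : A =ᶠ[𝓝 x] g := by
        filter_upwards [(contDiff_quad a).continuous.continuousAt.eventually_lt_const hlt] with y hy
        simp only [hA, hg, hζ, cutf_eq_one hM hy.le, one_mul]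
      simp only [hP, hf, pd, hev.fderiv_eq]
    rw [hP, picone hu heq hv cζ sζ 0] at step1
    refine step1.trans ?_
    have hbd : ∀ x, pd 0 u x ^ 2 * ∑ j, pd j ζ x ^ 2 ≤ ∑ i ∈ Finset.Icc 1 (2 ^ l),
        (box fun _ : Fin 2 => (2 : ℝ) ^ (k + i + 1)).indicator
          (fun _ => 16 * (8 * K ^ 2 * wt (2 ^ l) i ^ 2 / scale k i)) x := by
      intro x
      have h16 : pd 0 u x ^ 2 ≤ 16 := by
        have := pd_le hu hb (lap_bound hb heq) 0 x
        rw [← sq_abs]; norm_num at this; nlinarith [abs_nonneg (pd 0 u x)]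
      calc pd 0 u x ^ 2 * ∑ j, pd j ζ x ^ 2 ≤ 16 * ∑ i ∈ Finset.Icc 1 (2 ^ l),
            {y | quad a y ≤ 2 * scale k i}.indicator
              (fun _ => 8 * K ^ 2 * wt (2 ^ l) i ^ 2 / scale k i) x :=
            mul_le_mul h16 (sum_sq_pd_cutf (fun _ => zero_le_one) (fun _ => le_rfl) hK x)
              (Finset.sum_nonneg fun j _ => sq_nonneg _) (by norm_num)
        _ ≤ _ := by
            rw [Finset.mul_sum]
            refine Finset.sum_le_sum fun i _ => ?_
            have hp := scale_pos k i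
            by_cases h : quad a x ≤ 2 * scale k i
            · rw [indicator_of_mem (show x ∈ {y | quad a y ≤ 2 * scale k i} from h),
                indicator_of_mem]
              intro j
              rw [← abs_of_pos (show (0 : ℝ) < 2 ^ (k + i + 1) by positivity), ← sq_le_sq]
              calc x j ^ 2 ≤ quad a x := by
                    simp only [quad, a, one_mul]
                    exact Finset.single_le_sum (fun m _ => sq_nonneg (x m)) (Finset.mem_univ j)
                _ ≤ 2 * scale k i := h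
                _ ≤ _ := two_mul_scale_le k i
            · rw [indicator_of_notMem (show x ∉ {y | quad a y ≤ 2 * scale k i} from h), mul_zero]
              exact indicator_nonneg (fun _ _ => by positivity) _
    refine (integral_mono_of_nonneg (Eventually.of_forall fun x => by positivity)
      (integrable_finsetSum _ fun i _ => integrable_indicator_box _ _)
      (Eventually.of_forall hbd)).trans ?_
    rw [integral_finsetSum _ fun i _ => integrable_indicator_box _ _]
    have hterm : ∀ i, ∫ x, (box fun _ : Fin 2 => (2 : ℝ) ^ (k + i + 1)).indicator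
        (fun _ => 16 * (8 * K ^ 2 * wt (2 ^ l) i ^ 2 / scale k i)) x =
        16 * (16 * 8 * K ^ 2) * wt (2 ^ l) i ^ 2 := fun i => by
      rw [integral_indicator_box _ (fun _ => by positivity)]
      simp only [Fin.prod_univ_two, scale, pow_succ]
      rw [show (4 : ℝ) ^ (k + i) = 2 ^ (k + i) * 2 ^ (k + i) by rw [← mul_pow]; norm_num]
      field_simp
      ring
    simp only [hterm, ← Finset.mul_sum]
    have hw2 : ∑ i ∈ Finset.Icc 1 (2 ^ l : ℕ), wt (2 ^ l) i ^ 2 ≤ 2 * 4 / (l : ℝ) := by
      simp only [wt, div_pow, ← Finset.sum_div]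
      have hl0 : (0 : ℝ) < l := by exact_mod_cast hl
      have hl1 : (1 : ℝ) ≤ l := by exact_mod_cast hl
      have hH := harm_ge l
      calc (∑ i ∈ Finset.Icc 1 (2 ^ l : ℕ), ((i : ℝ)⁻¹) ^ 2) / harm (2 ^ l) ^ 2
          ≤ 2 / ((l : ℝ) / 2) ^ 2 :=
            div_le_div₀ zero_le_two (sum_inv_sq_le _) (by positivity)
              (pow_le_pow_left₀ (by positivity) hH 2)
        _ = 2 * 4 / ((l : ℝ) * l) := by field_simp; ring
        _ ≤ _ := div_le_div_of_nonneg_left (by norm_num) hl0 (le_mul_of_one_le_left hl0.le hl1)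
    refine (mul_le_mul_of_nonneg_left hw2 (by positivity)).trans (le_of_eq ?_)
    ring
  have hall : ∀ x, f x = 0 := fun x => by
    obtain ⟨k, hk⟩ := pow_unbounded_of_one_lt ‖x‖ (one_lt_two (α := ℝ))
    exact key k x (mem_ball_zero_iff.2 hk)
  have hd : ∀ x, fderiv ℝ g x = 0 := fun x => by
    have h := hall x
    simp only [hf, mul_eq_zero, pow_eq_zero_iff two_ne_zero, (hv x).ne', false_or] at h
    rw [Finset.sum_eq_zero_iff_of_nonneg (fun j _ => sq_nonneg _)] at h
    refine ContinuousLinearMap.ext fun d => ?_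
    rw [fderiv_eq_sum, zero_apply]
    refine Finset.sum_eq_zero fun j hj => ?_
    rw [pow_eq_zero_iff two_ne_zero |>.1 (h j hj), mul_zero]
  refine ⟨g 0, fun x => ?_⟩
  rw [← is_const_of_fderiv_eq_zero (cg.differentiable one_ne_zero) hd x 0, hg]
  exact (div_mul_cancel₀ _ (hv x).ne').symm

end

end Vale.Agent.P134
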